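import Crest.Agent.R12.SI.Three

/-! Row 12, block SI: `stP`. -/

set_option autoImplicit false

namespace Crest.Agent.R12

open Crest.Agent.R17 SI

/-- powers beat logarithms -/
theorem si_pow_le {δ : ℝ} (hδ : 0 < δ) : ∃ C : ℝ, 0 < C ∧ ∀ Y : ℝ, 2 ≤ Y →
    Y ^ (5 / 6 - δ) ≤ C * (Y ^ (5 / 6 : ℝ) / Real.log Y ^ (3 : ℝ)) := by
  refine ⟨(3 / δ) ^ (3 : ℝ), by positivity, fun Y hY => ?_⟩
  have hY0 : 0 < Y := by linarith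
  have hl : 0 < Real.log Y := Real.log_pos (by linarith)
  have h1 : Real.log Y ≤ 3 / δ * Y ^ (δ / 3) := by
    have := Real.log_le_rpow_div hY0.le (show 0 < δ / 3 by positivity)
    calc _ ≤ _ := this
      _ = _ := by field_simp
  have h2 : Real.log Y ^ (3 : ℝ) ≤ (3 / δ) ^ (3 : ℝ) * Y ^ δ := by
    calc _ ≤ (3 / δ * Y ^ (δ / 3)) ^ (3 : ℝ) := Real.rpow_le_rpow hl.le h1 (by norm_num)
      _ = _ := by
        rw [Real.mul_rpow (by positivity) (by positivity), ← Real.rpow_mul hY0.le]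
        norm_num
  rw [← mul_div_assoc, le_div_iff₀ (by positivity), Real.rpow_sub hY0, div_mul_eq_mul_div,
    div_le_iff₀ (by positivity)]
  calc Y ^ (5 / 6 : ℝ) * Real.log Y ^ (3 : ℝ) ≤ Y ^ (5 / 6 : ℝ) * ((3 / δ) ^ (3 : ℝ) * Y ^ δ) := by gcongr
    _ = _ := by ring

theorem stP (hT : StT1) (h1 : StBil) (h2 : StHi) (h3 : StBar) (h4 : StRam) : StP := by
  classical
  intro l
  obtain ⟨C₁, hC₁, H₁⟩ := PW_cut l
  obtain ⟨δ, C₂, hδ, H₂⟩ := typeI hT l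
  obtain ⟨C₃, hC₃, H₃⟩ := sum_Er l
  obtain ⟨C₄, hC₄, H₄⟩ := buch h1 h2 h3 h4 l
  obtain ⟨C₅, hC₅, H₅⟩ := sum_R2 h1 h2 h3 h4 l
  obtain ⟨C₆, hC₆, H₆⟩ := sum_R3 h1 h2 h4 l
  obtain ⟨D₁, hD₁, G₁⟩ := si_pow_le hδ
  obtain ⟨D₂, hD₂, G₂⟩ := si_pow_le (δ := 5 / 6) (by norm_num)
  refine ⟨C₁ * D₂ + |C₂| * D₁ + C₃ * D₂ + C₄ + C₅ + C₆, fun Y a hY ha ha1 => ?_⟩
  have hY0 : 0 < Y := by linarith
  have ha0 : 0 < a := (Real.rpow_pos_of_pos hY0 _).trans_le ha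
  have hl : 0 < Real.log Y := Real.log_pos (by linarith)
  have e : ∑ n ∈ sball (Y ^ 2), FF l a Y n * (if Prime n then 1 else 0) =
      ∑ n ∈ sball (Y ^ 2), FF l a Y n * Lam Y n -
      ∑ n ∈ sball (Y ^ 2), FF l a Y n *
        (Lam Y n * ((gy 1000 Y⁻¹ n - gy 1000 (Y ^ (32 / 100 : ℝ)) n : ℝ) : ℂ)) -
      ∑ n ∈ sball (Y ^ 2), FF l a Y n * R2 Y n - ∑ n ∈ sball (Y ^ 2), FF l a Y n * R3 Y n +
      ∑ n ∈ sball (Y ^ 2), FF l a Y n * Er Y n := by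
    simp only [← Finset.sum_sub_distrib, ← Finset.sum_add_distrib]
    refine Finset.sum_congr rfl fun n _ => ?_
    unfold Er
    ring
  have k1 := H₁ Y a hY ha0 ha1
  have k2 := H₂ Y a hY ha ha1
  have k3 := H₃ Y a hY ha0 ha1
  have k4 := H₄ Y a hY ha ha1
  have k5 := H₅ Y a hY ha ha1
  have k6 := H₆ Y a hY ha ha1
  have g1 := G₁ Y hY
  have g2 := G₂ Y hY
  rw [sub_self, Real.rpow_zero] at g2
  rw [e] at k1
  set P := PW l a Y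
  set S₂ := ∑ n ∈ sball (Y ^ 2), FF l a Y n * Lam Y n
  set S₄ := ∑ n ∈ sball (Y ^ 2), FF l a Y n *
    (Lam Y n * ((gy 1000 Y⁻¹ n - gy 1000 (Y ^ (32 / 100 : ℝ)) n : ℝ) : ℂ))
  set S₅ := ∑ n ∈ sball (Y ^ 2), FF l a Y n * R2 Y n
  set S₆ := ∑ n ∈ sball (Y ^ 2), FF l a Y n * R3 Y n
  set S₃ := ∑ n ∈ sball (Y ^ 2), FF l a Y n * Er Y n
  have t : ‖P‖ ≤ ‖P - (S₂ - S₄ - S₅ - S₆ + S₃)‖ + (‖S₂‖ + ‖S₄‖ + ‖S₅‖ + ‖S₆‖ + ‖S₃‖) := by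
    calc ‖P‖ = ‖(P - (S₂ - S₄ - S₅ - S₆ + S₃)) + (S₂ - S₄ - S₅ - S₆ + S₃)‖ := by congr 1; ring
      _ ≤ _ := (norm_add_le _ _).trans (by
        gcongr
        refine (norm_add_le _ _).trans ?_
        gcongr
        refine (norm_sub_le _ _).trans ?_
        gcongr
        refine (norm_sub_le _ _).trans ?_
        gcongr
        exact norm_sub_le _ _)
  set u := Y ^ (5 / 6 : ℝ) / Real.log Y ^ (3 : ℝ) with hu
  set v := Y ^ (5 / 6 : ℝ) * (Real.sqrt a / Real.log Y ^ (3 / 2 : ℝ)) with hv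
  have hu0 : 0 ≤ u := by positivity
  have hv0 : 0 ≤ v := by positivity
  have e2 : ∀ C : ℝ, C * Y ^ (5 / 6 : ℝ) *
      (Real.sqrt a / Real.log Y ^ (3 / 2 : ℝ) + 1 / Real.log Y ^ (3 : ℝ)) = C * (v + u) := fun C => by
    rw [hu, hv]; ring
  have e3 : ∀ C : ℝ, C * Y ^ (5 / 6 : ℝ) / Real.log Y ^ (3 : ℝ) = C * u := fun C => by rw [hu]; ring
  rw [e2] at k6 ⊢
  rw [e3] at k4 k5
  have m1 : C₁ / Y ≤ C₁ * D₂ * u := by
    calc C₁ / Y ≤ C₁ * 1 := by rw [mul_one]; exact div_le_self hC₁.le (by linarith)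
      _ ≤ C₁ * (D₂ * u) := by gcongr
      _ = _ := by ring
  have m2 : C₂ * Y ^ (5 / 6 - δ) ≤ |C₂| * D₁ * u := by
    calc _ ≤ |C₂| * Y ^ (5 / 6 - δ) := by gcongr; exact le_abs_self _
      _ ≤ |C₂| * (D₁ * u) := by gcongr
      _ = _ := by ring
  have m3 : C₃ ≤ C₃ * D₂ * u := by
    calc C₃ = C₃ * 1 := (mul_one _).symm
      _ ≤ C₃ * (D₂ * u) := by gcongr
      _ = _ := by ring
  have m4 : 0 ≤ (C₁ * D₂ + |C₂| * D₁ + C₃ * D₂ + C₄ + C₅) * v := by positivity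
  nlinarith

end Crest.Agent.R12
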