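import Crest.Agent.R12.SI.Defs

/-! Row 12, block SI: the type II range.  Prefix for helper lemmas: `two_`. -/

set_option autoImplicit false

namespace Crest.Agent.R12.SI

open Crest.Agent.R17
open scoped ComplexConjugate

theorem tw_dy (l : ℤ) (i : ℕ) (α : O → ℂ) : dy i (tw l α) = tw l (dy i α) := by
  funext b
  simp only [dy, tw, ite_mul, zero_mul]

theorem Dv.tw {k : ℕ} {α : O → ℂ} (h : Dv k α) (l : ℤ) : Dv k (tw l α) := by
  exact h.mul fun b => bla_norm_le b l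

theorem Dv.dy {k : ℕ} {α : O → ℂ} (h : Dv k α) (i : ℕ) : Dv k (dy i α) := by
  exact fun b => (norm_dy_le i α b).trans (h b)

/-- `dy i β b = β b * ψ (nN b)`, `bv_Ioc`, `BVS.mul_bv` -/
theorem BVS.dy {K : ℝ} {k : ℕ} {β : O → ℂ} (h : BVS K k β) (i : ℕ) : BVS (8 * K) k (dy i β) := by
  have h1 := h.mul_bv (bv_Ioc (2 ^ i) (2 * 2 ^ i))
  rw [show 2 * K * 4 = 8 * K by ring] at h1
  convert h1 using 1
  funext b
  simp only [R12.dy, nm, mul_ite, mul_one, mul_zero]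
  congr

/-- dyadic decomposition of the rows (`sum_ball_dy`) -/
theorem Bil_dy_rows (a Y : ℝ) (α γ : O → ℂ) {XA : ℝ} (XB : ℝ) {N : ℕ}
    (h : ∀ x, α x ≠ 0 → 1 < nm x ∧ nm x ≤ XA) (hN : XA ≤ 2 ^ N) :
    Bil a Y α γ XA XB = ∑ i ∈ Finset.range N, Bil a Y (dy i α) γ (2 * 2 ^ i) XB := by
  simp only [Bil, mul_assoc, ← Finset.mul_sum]
  exact sum_ball_dy α _ h hN

/-- dyadic decomposition of the columns, which are first cut to `1 < N m ≤ XB`; the term `m = 1` is kept -/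
theorem Bil_dy_cols (a Y : ℝ) (α γ : O → ℂ) (XA : ℝ) {XB : ℝ} {N : ℕ} (hγ : ∀ m, γ m ≠ 0 → Prim m)
    (h1 : 1 ≤ XB) (hN : XB ≤ 2 ^ N) :
    Bil a Y α γ XA XB = ∑ x ∈ ball XA, α x * γ 1 * f0 x * (LW a Y (nm x) : ℂ) +
      ∑ j ∈ Finset.range N,
        Bil a Y α (dy j fun m => if nm m ≤ XB then γ m else 0) XA (2 * 2 ^ j) := by
  classical
  have h0 : ∀ m, (if m ≠ 1 ∧ nm m ≤ XB then γ m else 0) ≠ 0 → 1 < nm m ∧ nm m ≤ XB := by
    intro m hm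
    have h2 : m ≠ 1 ∧ nm m ≤ XB := by
      by_contra h
      exact hm (if_neg h)
    rw [if_pos h2] at hm
    refine ⟨lt_of_le_of_ne (one_le_nm (hγ m hm).ne_zero) fun h => h2.1 ?_, h2.2⟩
    refine (hγ m hm).eq_one_of_isUnit (nN_eq_one.1 ?_)
    exact_mod_cast (show (1 : ℝ) = nN m from h).symm
  have h3 : ∀ j : ℕ, dy j (fun m => if nm m ≤ XB then γ m else 0) =
      dy j fun m => if m ≠ 1 ∧ nm m ≤ XB then γ m else 0 := by
    intro j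
    funext m
    by_cases hm : m = 1
    · have : ¬ ((2 : ℝ) ^ j < nm m ∧ nm m ≤ 2 * 2 ^ j) := fun h => by
        rw [hm, nm_unit isUnit_one] at h
        exact absurd h.1 (not_lt.2 (one_le_pow₀ one_le_two))
      simp only [dy, if_neg this]
    · simp only [dy, ne_eq, hm, not_false_eq_true, true_and]
  simp only [h3, Bil_comm a Y α]
  rw [← Bil_dy_rows a Y _ α XA h0 hN, Bil_comm a Y γ, Bil_comm a Y _ α, Bil, Bil,
    ← Finset.sum_add_distrib]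
  refine Finset.sum_congr rfl fun x _ => ?_
  have h4 : (1 : O) ∈ ball XB := mem_ball.2 (by rwa [nm_unit isUnit_one])
  rw [← Finset.add_sum_erase _ _ h4, ← Finset.add_sum_erase _ _ h4, mul_one,
    if_neg (fun h => h.1 rfl), mul_zero, zero_mul, zero_mul, zero_add]
  refine congrArg _ (Finset.sum_congr rfl fun m hm => ?_)
  rw [if_pos ⟨(Finset.mem_erase.1 hm).1, mem_ball.1 (Finset.mem_erase.1 hm).2⟩]

theorem two_b_exp {Y A B : ℝ} (hY : 1 < Y) (hA : 0 < A) (hB : Y ^ (337 / 1000 : ℝ) ≤ B)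
    (h : A * B ≤ Y ^ (1 + 1 / 10000 : ℝ)) : A ≤ Y ^ (2 / 3 : ℝ) ∧ A ≤ B ^ 2 ∧
      (A + A ^ (3 / 4 : ℝ) * B ^ (1 / 2 : ℝ)) * (A * B) ≤ 2 * (Y ^ (833 / 1000 : ℝ)) ^ 2 := by
  have hY0 : 0 < Y := by linarith
  have hB0 : 0 < B := (Real.rpow_pos_of_pos hY0 _).trans_le hB
  obtain ⟨u, rfl⟩ : ∃ u, A = Y ^ u := ⟨_, (Real.rpow_logb hY0 hY.ne' hA).symm⟩
  obtain ⟨v, rfl⟩ : ∃ v, B = Y ^ v := ⟨_, (Real.rpow_logb hY0 hY.ne' hB0).symm⟩
  rw [← Real.rpow_add hY0, Real.rpow_le_rpow_left_iff hY] at h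
  rw [Real.rpow_le_rpow_left_iff hY] at hB
  refine ⟨Real.rpow_le_rpow_of_exponent_le hY.le (by linarith), ?_, ?_⟩
  · rw [sq, ← Real.rpow_add hY0]
    exact Real.rpow_le_rpow_of_exponent_le hY.le (by linarith)
  · rw [sq, add_mul, two_mul, ← Real.rpow_mul hY0.le, ← Real.rpow_mul hY0.le]
    simp only [← Real.rpow_add hY0]
    exact add_le_add (Real.rpow_le_rpow_of_exponent_le hY.le (by linarith))
      (Real.rpow_le_rpow_of_exponent_le hY.le (by linarith))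

theorem two_b_large (r : ℝ) : ∃ Y₀ : ℝ, ∀ Y : ℝ, Y₀ ≤ Y → 2 ≤ Y ∧ 10000 ≤ Real.log Y ∧
    2 ≤ Y ^ (1 / 3 : ℝ) ∧ Real.log Y ^ r ≤ Y ^ (1 / 3000 : ℝ) := by
  have h1 := (isLittleO_log_rpow_rpow_atTop r (s := 1 / 3000) (by norm_num)).eventuallyLE
  have h2 := Real.tendsto_log_atTop.eventually_ge_atTop 10000
  have h3 := (tendsto_rpow_atTop (y := 1 / 3) (by norm_num)).eventually_ge_atTop 2
  obtain ⟨Y₀, h⟩ := Filter.eventually_atTop.1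
    ((Filter.eventually_ge_atTop (2 : ℝ)).and (h2.and (h3.and h1)))
  refine ⟨Y₀, fun Y hY => ?_⟩
  obtain ⟨a1, a2, a3, a4⟩ := h Y hY
  refine ⟨a1, a2, a3, ?_⟩
  rw [Real.norm_eq_abs, Real.norm_eq_abs, abs_of_nonneg (Real.rpow_nonneg (by linarith) (1 / 3000))]
    at a4
  exact (le_abs_self _).trans a4

/-- one pair of dyadic blocks away from the barrier: the shorter block `B` carries the columns.
`Bil_far` (`ε = 1/2000`), `StRam`, `StBil` with `N2_le_of_Dv`; the first term is at most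
`C log^D · min(AB/Y, Y/(AB)) · (A B^(1/2) + (AB)^(7/8) B^(-1/8)) ≤ C log^D Y^(7/8) B^(-1/8)`,
`7/8 - 0.337/8 < 5/6` -/
theorem block_bil (hB : StBil) (hR : StRam) (l : ℤ) {η : ℝ} (hη : 0 < η) (C₃ : ℝ) : ∃ C Y₀ : ℝ, 0 < C ∧
    ∀ (Y a A B : ℝ) (α β : O → ℂ), Y₀ ≤ Y → Y ^ (-η) ≤ a → a ≤ 1 → 1 ≤ A → Y ^ (337 / 1000 : ℝ) ≤ B →
    B ≤ Y ^ (1 / 2 - η) → Supp α A (2 * A) → Supp β B (2 * B) → Dv 1 α → Dv 1 β → BVS 10000 1 β →
    ‖Bil a Y (tw l α) (tw l β) (2 * A) (2 * B)‖ ≤ C * Y ^ (5 / 6 : ℝ) / Real.log Y ^ C₃ := by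
  obtain ⟨C, C₂, hC⟩ := hB η 1 C₃ hη
  obtain ⟨Y₁, hY₁⟩ := hR l 1 1 C₂
  obtain ⟨Cf, hCf, hf⟩ := Bil_far 1 0 (1 / 10000) (by norm_num)
  obtain ⟨c, D, hc, hD, hN⟩ := N2_le_of_Dv 1
  obtain ⟨Y₂, hY₂⟩ := two_b_large (D + C₃)
  refine ⟨Cf + |C| * (4 * c + 1), max Y₁ Y₂, by positivity, ?_⟩
  intro Y a A B α β hY ha ha1 hA hBl hBu hα hβ dα dβ hbv
  obtain ⟨h2, hlog, h3, hL⟩ := hY₂ Y ((le_max_right _ _).trans hY)
  have hY1 : 1 < Y := by linarith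
  have hY0 : 0 < Y := by linarith
  have ha0 : 0 < a := (Real.rpow_pos_of_pos hY0 _).trans_le ha
  have hB1 : 1 ≤ B := (Real.one_le_rpow hY1.le (by norm_num)).trans hBl
  have hl0 : 0 < Real.log Y := by linarith
  have sα : Supp (tw l α) A (2 * A) := hα.mul _
  have sβ : Supp (tw l β) B (2 * B) := hβ.mul _
  obtain ⟨W, hW⟩ : ∃ W, W = Y ^ (5 / 6 : ℝ) / Real.log Y ^ C₃ := ⟨_, rfl⟩
  have hLW : Real.log Y ^ D * Y ^ (833 / 1000 : ℝ) ≤ W := by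
    rw [hW, le_div_iff₀ (by positivity), mul_right_comm, ← Real.rpow_add hl0,
      show (5 / 6 : ℝ) = 1 / 3000 + 833 / 1000 by norm_num, Real.rpow_add hY0]
    exact mul_le_mul_of_nonneg_right hL (by positivity)
  have hW1 : 1 ≤ W := le_trans (one_le_mul_of_one_le_of_one_le
    (Real.one_le_rpow (by linarith) hD) (Real.one_le_rpow hY1.le (by norm_num))) hLW
  have hCW : 0 ≤ |C| * (4 * c + 1) * W := by positivity
  rw [mul_div_assoc, ← hW, add_mul]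
  by_cases hfar : Y ^ (1 + 1 / 10000 : ℝ) ≤ A * B
  · have := hf Y a A B _ _ hY1.le ha0 ha1 (by linarith) (by linarith) sα sβ (Dv.tw dα l)
      (Dv.tw dβ l) (Or.inr hfar)
    rw [neg_zero, Real.rpow_zero] at this
    have := mul_le_mul_of_nonneg_left hW1 hCf.le
    linarith
  obtain ⟨e1, e2, e3⟩ := two_b_exp hY1 (by linarith) hBl (not_le.1 hfar).le
  have h23 : 2 * Y ^ (2 / 3 : ℝ) ≤ Y := by
    calc _ ≤ Y ^ (1 / 3 : ℝ) * Y ^ (2 / 3 : ℝ) := mul_le_mul_of_nonneg_right h3 (by positivity)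
      _ = Y := by rw [← Real.rpow_add hY0]; norm_num
  have hB23 : B ≤ Y ^ (2 / 3 : ℝ) :=
    hBu.trans (Real.rpow_le_rpow_of_exponent_le hY1.le (by linarith))
  have hsw := hY₁ Y B β ((le_max_left _ _).trans hY)
    ((Real.rpow_le_rpow_of_exponent_le hY1.le (by norm_num)).trans hBl) (by linarith) hβ dβ
    (hbv.mono (by rwa [Real.rpow_one]) le_rfl)
  have key := hC Y a A B _ _ h2 ha ha1 hA hB1 (by nlinarith [sq_nonneg B]) hBu sα sβ (Dv.tw dα l)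
    (Dv.tw dβ l) hsw
  have n1 := (hN _ A (2 * A) Y sα (Dv.tw dα l) (by linarith) (by linarith) h2).1
  have n2 := (hN _ B (2 * B) Y sβ (Dv.tw dβ l) (by linarith) (by linarith) h2).2
  obtain ⟨L, hLd⟩ : ∃ L, L = Real.log Y ^ D := ⟨_, rfl⟩
  rw [← hLd] at n1 n2 hLW
  have hL0 : 0 < L := by rw [hLd]; positivity
  obtain ⟨P, hP⟩ : ∃ P, P = A + A ^ (3 / 4 : ℝ) * B ^ (1 / 2 : ℝ) := ⟨_, rfl⟩
  have hP0 : 0 ≤ P := by rw [hP]; positivity
  rw [← hP] at key e3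
  have hm0 : 0 ≤ min (A * B / Y) (Y / (A * B)) := le_min (by positivity) (by positivity)
  have hm1 : min (A * B / Y) (Y / (A * B)) ≤ 1 := by
    rcases le_total (A * B) Y with h | h
    · exact (min_le_left _ _).trans (div_le_one_of_le₀ h hY0.le)
    · exact (min_le_right _ _).trans (div_le_one_of_le₀ h (by positivity))
  have hT : √(a * P) * √(N2 (tw l α) (2 * A)) * √(N2d (tw l β) (2 * B)) ≤
      4 * c * (L * Y ^ (833 / 1000 : ℝ)) := by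
    rw [← Real.sqrt_mul (by positivity), ← Real.sqrt_mul (mul_nonneg (by positivity) (N2_nonneg _ _))]
    refine Real.sqrt_le_iff.2 ⟨by positivity, ?_⟩
    calc _ ≤ P * (c * (2 * A) * L) * (c * (2 * B) * L) :=
          mul_le_mul (mul_le_mul (mul_le_of_le_one_left hP0 ha1) n1 (N2_nonneg _ _) hP0) n2
            (N2d_nonneg _ _) (by positivity)
      _ = 4 * c ^ 2 * L ^ 2 * (P * (A * B)) := by ring
      _ ≤ 4 * c ^ 2 * L ^ 2 * (4 * (Y ^ (833 / 1000 : ℝ)) ^ 2) :=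
          mul_le_mul_of_nonneg_left (by nlinarith [sq_nonneg (Y ^ (833 / 1000 : ℝ))]) (by positivity)
      _ = _ := by ring
  obtain ⟨T, hTd⟩ : ∃ T, T = min (A * B / Y) (Y / (A * B)) *
    (√(a * P) * √(N2 (tw l α) (2 * A)) * √(N2d (tw l β) (2 * B))) := ⟨_, rfl⟩
  have hT0 : 0 ≤ T := by rw [hTd]; positivity
  have hT1 : T ≤ 4 * c * W := by
    rw [hTd]
    exact (mul_le_of_le_one_left (by positivity) hm1).trans
      (hT.trans (mul_le_mul_of_nonneg_left hLW (by positivity)))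
  have key' : ‖Bil a Y (tw l α) (tw l β) (2 * A) (2 * B)‖ ≤ C * (T + W) := by
    refine key.trans (le_of_eq ?_)
    rw [hTd, hW]
    ring
  calc _ ≤ C * (T + W) := key'
    _ ≤ |C| * (T + W) := mul_le_mul_of_nonneg_right (le_abs_self C) (by positivity)
    _ ≤ |C| * ((4 * c + 1) * W) := mul_le_mul_of_nonneg_left (by linarith) (abs_nonneg C)
    _ ≤ _ := by
      have : 0 ≤ Cf * W := by positivity
      linarith

theorem two_a_log (C₃ : ℝ) : ∃ C : ℝ, 0 < C ∧ ∀ Y : ℝ, 2 ≤ Y →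
    Real.log Y ^ C₃ ≤ C * Y ^ (5 / 6 : ℝ) := by
  obtain ⟨C, hC, h⟩ := one_add_log_rpow_le C₃ (show (0 : ℝ) < 5 / 6 by norm_num)
  refine ⟨C + (1 / 2) ^ C₃, by positivity, fun Y hY => ?_⟩
  have h1 : 1 / 2 ≤ Real.log Y := by linarith [Real.log_two_gt_d9, Real.log_le_log two_pos hY]
  have h2 : 1 ≤ Y ^ (5 / 6 : ℝ) := Real.one_le_rpow (by linarith) (by norm_num)
  have h3 : (0 : ℝ) < (1 / 2) ^ C₃ := by positivity
  rcases le_total 0 C₃ with h0 | h0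
  · have := (Real.rpow_le_rpow (by linarith) (le_add_of_nonneg_left zero_le_one) h0).trans
      (h Y (by linarith))
    nlinarith
  · have := Real.rpow_le_rpow_of_nonpos (by norm_num) h1 h0
    nlinarith

theorem two_a_far : ∃ C : ℝ, 0 < C ∧ ∀ (Y a XA XB : ℝ) (α γ : O → ℂ), 1 ≤ Y → 0 < a → a ≤ 1 →
    Dv 1 α → Dv 1 γ → (∀ x m, α x ≠ 0 → γ m ≠ 0 →
      nm (x * m) ≤ 2 * Y ^ (37 / 40 : ℝ) ∨ Y ^ (21 / 20 : ℝ) ≤ nm (x * m)) →
    ‖Bil a Y α γ XA XB‖ ≤ C := by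
  obtain ⟨C₁, hC₁, h₁⟩ := btc_key 1
  obtain ⟨C₂, hC₂, h₂⟩ := LW_tail 1 0 (1 / 20) (by norm_num)
  obtain ⟨C₃, hC₃, h₃⟩ := Bil_bdd 1
  refine ⟨C₁ * C₂ + C₃ * (2 ^ (40 : ℝ)) ^ 2, by positivity,
    fun Y a XA XB α γ hY ha ha1 dα dγ hfar => ?_⟩
  have hY0 : 0 < Y := by linarith
  rcases le_total Y (2 ^ (40 : ℝ)) with hYY | hYY
  · refine (h₃ Y a XA XB α γ hY ha ha1 dα dγ).trans (le_add_of_nonneg_of_le (by positivity) ?_)
    gcongr
  · have h4 : 2 ≤ Y ^ (1 / 40 : ℝ) := by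
      refine le_trans (le_of_eq ?_) (Real.rpow_le_rpow (by positivity) hYY (by norm_num))
      rw [← Real.rpow_mul zero_le_two]
      norm_num
    obtain ⟨S, hS, h5⟩ := h₁ a Y XA XB α γ
      (fun n => nm n ≤ 2 * Y ^ (37 / 40 : ℝ) ∨ Y ^ (21 / 20 : ℝ) ≤ nm n) dα dγ hfar
    have h6 := h₂ a Y Y S ha (by linarith) hY hY0 le_rfl fun n hn => ⟨(hS n hn).1, by
      rcases (hS n hn).2 with h | h
      · left
        calc nm n ≤ Y ^ (1 / 40 : ℝ) * Y ^ (37 / 40 : ℝ) :=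
              h.trans (mul_le_mul_of_nonneg_right h4 (by positivity))
          _ = _ := by
              rw [← Real.rpow_add hY0, mul_comm, ← Real.rpow_add_one hY0.ne']
              norm_num
      · right
        rw [mul_comm, ← Real.rpow_add_one hY0.ne']
        convert h using 2
        norm_num⟩
    simp only [abs_one, Real.rpow_one, neg_zero, Real.rpow_zero, mul_one] at h6
    exact (h5.trans (mul_le_mul_of_nonneg_left h6 hC₁.le)).trans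
      (le_add_of_nonneg_right (by positivity))

/-- one block of rows at the barrier: replace the columns by `gy · al^l` (columns outside
`[Y^0.4, Y^0.6]` are negligible by `LW_small`; `f0` vanishes off `PSq`), then `StBar` -/
theorem block_bar (hB : StBar) (l : ℤ) : ∃ η : ℝ, 0 < η ∧ η ≤ 1 / 1000 ∧ ∀ C₃ : ℝ, ∃ C : ℝ, 0 < C ∧
    ∀ (Y a A y : ℝ) (α γ : O → ℂ), 2 ≤ Y → Y ^ (-η) ≤ a → a ≤ 1 → Y ^ (1 / 2 - η) ≤ A →
    A ≤ Y ^ (1 / 2 + η) → Y ^ (15 / 100 : ℝ) ≤ y → y ≤ Y → Supp α A (2 * A) → Dv 1 α → Dv 1 γ →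
    (∀ m, PSq m → Y ^ (4 / 10 : ℝ) ≤ nm m → nm m ≤ Y ^ (6 / 10 : ℝ) →
      ‖γ m - (gy 1000 y m : ℂ)‖ ≤ Y ^ (-(2 : ℝ))) →
    ‖Bil a Y (tw l α) (tw l γ) (2 * A) Y‖ ≤ C * Y ^ (5 / 6 : ℝ) / Real.log Y ^ C₃ := by
  classical
  obtain ⟨η, hη, hη', h⟩ := hB l
  refine ⟨η, hη, hη', fun C₃ => ?_⟩
  obtain ⟨C, hC⟩ := h 1000 1 C₃ (by norm_num)
  obtain ⟨C₁, hC₁, h₁⟩ := Bil_bdd 1
  obtain ⟨C₂, hC₂, h₂⟩ := two_a_far
  obtain ⟨C₄, hC₄, h₄⟩ := two_a_log C₃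
  refine ⟨|C| + (C₁ + 2 * C₂) * C₄, by positivity,
    fun Y a A y α γ hY ha ha1 hA hA' hy hy' hα dα dγ hγ => ?_⟩
  have hY0 : 0 < Y := by linarith
  have hY1 : 1 ≤ Y := by linarith
  have ha0 : 0 < a := (Real.rpow_pos_of_pos hY0 _).trans_le ha
  have hy0 : 0 ≤ y := (Real.rpow_nonneg hY0.le _).trans hy
  have sα : Supp (tw l α) A (2 * A) := hα.mul _
  have dα' := Dv.tw dα l
  have hY2 : (Y : ℂ) ^ 2 ≠ 0 := pow_ne_zero _ (Complex.ofReal_ne_zero.2 hY0.ne')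
  have hY3 : (Y : ℂ) ≠ 0 := Complex.ofReal_ne_zero.2 hY0.ne'
  set P : O → Prop := fun m => Y ^ (4 / 10 : ℝ) ≤ nm m ∧ nm m ≤ Y ^ (6 / 10 : ℝ) with hP
  set δ₁ : O → ℂ := fun m =>
    if PSq m ∧ P m then (Y : ℂ) ^ 2 * (γ m - gy 1000 y m) else 0 with hδ₁
  set δ₂ : O → ℂ := fun m => if PSq m ∧ ¬ P m then 2⁻¹ * (γ m - gy 1000 y m) else 0 with hδ₂
  have d₁ : Dv 1 δ₁ := fun m => by
    simp only [hδ₁, pow_one]
    split_ifs with hm
    · have h5 := hγ m hm.1 hm.2.1 hm.2.2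
      rw [Real.rpow_neg hY0.le, Real.rpow_two] at h5
      rw [norm_mul, norm_pow, Complex.norm_real, Real.norm_of_nonneg hY0.le]
      refine le_trans ?_ (one_le_dn hm.1.ne_zero)
      rwa [← le_div_iff₀' (by positivity), one_div]
    · rw [norm_zero]
      exact dn_nonneg m
  have d₂ : Dv 1 δ₂ := fun m => by
    simp only [hδ₂, pow_one]
    split_ifs with hm
    · have h5 := dγ m
      have h6 := norm_sub_le (γ m) (gy 1000 y m)
      rw [Complex.norm_real, Real.norm_of_nonneg (gy_pos _ _ _).le] at h6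
      rw [pow_one] at h5
      rw [norm_mul, norm_inv, Complex.norm_two]
      linarith [gy_le_one 1000 hy0 m, one_le_dn hm.1.ne_zero]
    · rw [norm_zero]
      exact dn_nonneg m
  have e : Bil a Y (tw l α) (tw l γ) (2 * A) Y =
      Bil a Y (tw l α) (fun m => (gy 1000 y m : ℂ) * al m ^ l) (2 * A) Y +
        ((Y : ℂ) ^ 2)⁻¹ * Bil a Y (tw l α) (tw l δ₁) (2 * A) Y +
        2 * Bil a Y (tw l α) (tw l δ₂) (2 * A) Y := by
    simp only [Bil, Finset.mul_sum, ← Finset.sum_add_distrib]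
    refine Finset.sum_congr rfl fun x _ => Finset.sum_congr rfl fun m _ => ?_
    by_cases hx : tw l α x = 0
    · simp only [hx, zero_mul, mul_zero, add_zero]
    by_cases hm : PSq m
    · simp only [tw, hδ₁, hδ₂, hm, true_and]
      by_cases hp : P m
      · rw [if_pos hp, if_neg (not_not.2 hp)]
        field_simp
        ring
      · rw [if_neg hp, if_pos hp]
        ring
    · rw [f0_eq_zero fun h => hm (h.of_mul_left (sα x hx).1.1)]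
      simp only [zero_mul, mul_zero, add_zero]
  have b0 := hC Y a A y _ hY ha ha1 hA hA' hy hy' sα dα'
  have b1 : ‖((Y : ℂ) ^ 2)⁻¹ * Bil a Y (tw l α) (tw l δ₁) (2 * A) Y‖ ≤ C₁ := by
    rw [norm_mul, norm_inv, norm_pow, Complex.norm_real, Real.norm_of_nonneg hY0.le,
      inv_mul_le_iff₀ (by positivity), mul_comm (Y ^ 2)]
    exact h₁ Y a _ _ _ _ hY1 ha0 ha1 dα' (Dv.tw d₁ l)
  have b2 : ‖Bil a Y (tw l α) (tw l δ₂) (2 * A) Y‖ ≤ C₂ := by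
    refine h₂ Y a _ _ _ _ hY1 ha0 ha1 dα' (Dv.tw d₂ l) fun x m hx hm => ?_
    obtain ⟨-, h5, h6⟩ := sα x hx
    have h7 : ¬ P m := fun hp => hm (by simp only [tw, hδ₂, hp, not_true, and_false, if_false, zero_mul])
    rw [nm_mul]
    rcases not_and_or.1 h7 with h8 | h8
    · left
      calc nm x * nm m ≤ 2 * Y ^ (501 / 1000 : ℝ) * Y ^ (4 / 10 : ℝ) := by
            have := hA'.trans (Real.rpow_le_rpow_of_exponent_le hY1
              (show 1 / 2 + η ≤ 501 / 1000 by linarith))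
            exact mul_le_mul (by linarith) (not_le.1 h8).le (nm_nonneg m) (by positivity)
        _ ≤ _ := by
            rw [mul_assoc, ← Real.rpow_add hY0]
            exact mul_le_mul_of_nonneg_left
              (Real.rpow_le_rpow_of_exponent_le hY1 (by norm_num)) zero_le_two
    · right
      calc Y ^ (21 / 20 : ℝ) ≤ Y ^ (1 / 2 - η) * Y ^ (6 / 10 : ℝ) := by
            rw [← Real.rpow_add hY0]
            exact Real.rpow_le_rpow_of_exponent_le hY1 (by linarith)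
        _ ≤ _ := mul_le_mul (hA.trans h5.le) (not_le.1 h8).le (by positivity) (nm_nonneg x)
  have hL : 0 < Real.log Y ^ C₃ := Real.rpow_pos_of_pos (Real.log_pos (by linarith)) _
  have b3 : 1 ≤ C₄ * (Y ^ (5 / 6 : ℝ) / Real.log Y ^ C₃) := by
    rw [← mul_div_assoc, one_le_div hL]
    exact h₄ Y hY
  have b4 := mul_le_mul_of_nonneg_left b3 (show 0 ≤ C₁ + 2 * C₂ by positivity)
  have b5 := mul_le_mul_of_nonneg_right (le_abs_self C)
    (show 0 ≤ Y ^ (5 / 6 : ℝ) / Real.log Y ^ C₃ by positivity)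
  rw [mul_div_assoc] at b0 ⊢
  rw [e]
  refine (norm_add₃_le).trans ?_
  rw [norm_mul (2 : ℂ), Complex.norm_two]
  linarith

theorem twoc_log {δ : ℝ} (hδ : 0 < δ) : ∃ C : ℝ, 0 < C ∧ ∀ Y : ℝ, 2 ≤ Y →
    Y ^ (5 / 6 - δ) ≤ C * (Y ^ (5 / 6 : ℝ) / Real.log Y ^ (6 : ℝ)) := by
  refine ⟨(6 / δ) ^ (6 : ℝ), by positivity, fun Y hY => ?_⟩
  have hY0 : 0 < Y := by linarith
  have hL : 0 < Real.log Y := Real.log_pos (by linarith)
  have h1 : Real.log Y ≤ 6 / δ * Y ^ (δ / 6) := by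
    have := Real.log_le_rpow_div hY0.le (show 0 < δ / 6 by positivity)
    calc Real.log Y ≤ Y ^ (δ / 6) / (δ / 6) := this
      _ = _ := by field_simp
  have h2 : Real.log Y ^ (6 : ℝ) ≤ (6 / δ) ^ (6 : ℝ) * Y ^ δ := by
    calc Real.log Y ^ (6 : ℝ) ≤ (6 / δ * Y ^ (δ / 6)) ^ (6 : ℝ) :=
          Real.rpow_le_rpow hL.le h1 (by norm_num)
      _ = _ := by
          rw [Real.mul_rpow (by positivity) (by positivity), ← Real.rpow_mul hY0.le]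
          congr 2
          ring
  rw [← mul_div_assoc, le_div_iff₀ (by positivity)]
  calc Y ^ (5 / 6 - δ) * Real.log Y ^ (6 : ℝ) ≤ Y ^ (5 / 6 - δ) * ((6 / δ) ^ (6 : ℝ) * Y ^ δ) := by
        gcongr
    _ = (6 / δ) ^ (6 : ℝ) * (Y ^ (5 / 6 - δ) * Y ^ δ) := by ring
    _ = _ := by rw [← Real.rpow_add hY0, sub_add_cancel]

theorem twoc_supp {α : O → ℂ} {A X : ℝ} (h : Supp α A X) (l : ℤ) : Supp (tw l α) A X :=
  h.mul fun n => al n ^ l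

theorem twoc_far : ∀ ε : ℝ, 0 < ε → ∃ C : ℝ, 0 < C ∧ ∀ (Y a A B : ℝ) (α γ : O → ℂ), 2 ≤ Y →
    0 < a → a ≤ 1 → 0 < A → 0 < B → Supp α A (2 * A) → Supp γ B (2 * B) → Dv 1 α → Dv 1 γ →
    (A * B ≤ Y ^ (1 - ε) ∨ Y ^ (1 + ε) ≤ A * B) →
    ‖Bil a Y α γ (2 * A) (2 * B)‖ ≤ C * (Y ^ (5 / 6 : ℝ) / Real.log Y ^ (6 : ℝ)) := by
  intro ε hε
  obtain ⟨C, hC, h⟩ := Bil_far 1 0 ε hε
  obtain ⟨D, hD, hl⟩ := twoc_log (δ := 5 / 6) (by norm_num)
  refine ⟨C * D, by positivity, fun Y a A B α γ hY ha ha1 hA hB sα sγ dα dγ hf => ?_⟩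
  have h1 := h Y a A B α γ (by linarith) ha ha1 hA hB sα sγ dα dγ hf
  have h2 := hl Y hY
  rw [sub_self] at h2
  rw [neg_zero] at h1
  calc _ ≤ C * Y ^ (0 : ℝ) := h1
    _ ≤ C * (D * (Y ^ (5 / 6 : ℝ) / Real.log Y ^ (6 : ℝ))) := by gcongr
    _ = _ := by ring

/-- one pair of dyadic blocks off the barrier -/
theorem twoc_pair (h1 : StBil) (h2 : StHi) (h4 : StRam) (l : ℤ) {η : ℝ} (hη : 0 < η)
    (hη1 : η ≤ 1 / 1000) : ∃ C Y₀ : ℝ, 0 < C ∧ ∀ (Y a A B : ℝ) (α γ : O → ℂ), 2 ≤ Y → Y₀ ≤ Y →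
    Y ^ (-(17 / 100) : ℝ) ≤ a → a ≤ 1 → Y ^ (337 / 1000 : ℝ) ≤ A → A ≤ Y ^ (662 / 1000 : ℝ) → 1 ≤ B →
    (a ≤ Y ^ (-(η / 2)) ∨ A ≤ Y ^ (1 / 2 - η) ∨ Y ^ (1 / 2 + η) ≤ A) →
    Supp α A (2 * A) → Supp γ B (2 * B) → Dv 1 α → Dv 1 γ → BVS 10000 1 α → BVS 10000 1 γ →
    ‖Bil a Y (tw l α) (tw l γ) (2 * A) (2 * B)‖ ≤ C * (Y ^ (5 / 6 : ℝ) / Real.log Y ^ (6 : ℝ)) := by
  have hη2 : 0 < η / 2 := by positivity
  obtain ⟨C₁, hC₁, hfar⟩ := twoc_far (η / 2) hη2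
  obtain ⟨C₂, Y₀, hC₂, hbil⟩ := block_bil h1 h4 l hη2 6
  obtain ⟨δ, C₃, hδ, hhi⟩ := h2 (η / 2) 1 hη2
  obtain ⟨D, hD, hl⟩ := twoc_log hδ
  refine ⟨C₁ + C₂ + |C₃| * D, Y₀, by positivity,
    fun Y a A B α γ hY hY₀ ha ha1 hA hA' hB hc sα sγ dα dγ bα bγ => ?_⟩
  have hY0 : 0 < Y := by linarith
  have hY1 : 1 ≤ Y := by linarith
  have hL : 0 < Real.log Y := Real.log_pos (by linarith)
  obtain ⟨T, hT⟩ : ∃ T, T = Y ^ (5 / 6 : ℝ) / Real.log Y ^ (6 : ℝ) := ⟨_, rfl⟩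
  have hT0 : 0 ≤ T := by rw [hT]; positivity
  have ha0 : 0 < a := lt_of_lt_of_le (by positivity) ha
  have hA1 : 1 ≤ A := (Real.one_le_rpow hY1 (by norm_num)).trans hA
  have hA0 : 0 < A := by linarith
  have hB0 : 0 < B := by linarith
  have e₁ : 0 ≤ C₁ * T := by positivity
  have e₂ : 0 ≤ C₂ * T := by positivity
  have e₃ : 0 ≤ |C₃| * D * T := by positivity
  rw [← hT]
  by_cases hf : A * B ≤ Y ^ (1 - η / 2) ∨ Y ^ (1 + η / 2) ≤ A * B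
  · have := hfar Y a A B _ _ hY ha0 ha1 hA0 hB0 (twoc_supp sα l) (twoc_supp sγ l) (Dv.tw dα l)
      (Dv.tw dγ l) hf
    rw [← hT] at this
    linarith
  push Not at hf
  obtain ⟨hlo, hup⟩ := hf
  have hB' : Y ^ (337 / 1000 : ℝ) ≤ B := by
    have : Y ^ (662 / 1000 : ℝ) * Y ^ (337 / 1000 : ℝ) ≤ Y ^ (662 / 1000 : ℝ) * B := by
      calc Y ^ (662 / 1000 : ℝ) * Y ^ (337 / 1000 : ℝ) = Y ^ (662 / 1000 + 337 / 1000 : ℝ) :=
            (Real.rpow_add hY0 _ _).symm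
        _ ≤ Y ^ (1 - η / 2) := Real.rpow_le_rpow_of_exponent_le hY1 (by linarith)
        _ ≤ A * B := hlo.le
        _ ≤ _ := by gcongr
    exact le_of_mul_le_mul_left this (by positivity)
  by_cases hs : a ≤ Y ^ (-(η / 2))
  · have p₁ : A ≤ 4 * B ^ 2 := by
      calc A ≤ Y ^ (662 / 1000 : ℝ) := hA'
        _ ≤ Y ^ (337 / 1000 + 337 / 1000 : ℝ) := Real.rpow_le_rpow_of_exponent_le hY1 (by norm_num)
        _ = Y ^ (337 / 1000 : ℝ) * Y ^ (337 / 1000 : ℝ) := Real.rpow_add hY0 _ _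
        _ ≤ B * B := by gcongr
        _ ≤ _ := by nlinarith
    have p₂ : B ≤ 4 * A ^ 2 := by
      have : A * B ≤ A * (A * A) := by
        calc A * B ≤ Y ^ (1 + η / 2) := hup.le
          _ ≤ Y ^ (337 / 1000 + (337 / 1000 + 337 / 1000) : ℝ) :=
              Real.rpow_le_rpow_of_exponent_le hY1 (by linarith)
          _ = Y ^ (337 / 1000 : ℝ) * (Y ^ (337 / 1000 : ℝ) * Y ^ (337 / 1000 : ℝ)) := by
              rw [Real.rpow_add hY0, Real.rpow_add hY0]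
          _ ≤ _ := by gcongr
      have := le_of_mul_le_mul_left this hA0
      nlinarith
    have q₁ := hhi Y a A B _ _ hY ha hs hA1 hB p₁ p₂ (twoc_supp sα l) (twoc_supp sγ l) (Dv.tw dα l)
      (Dv.tw dγ l)
    have q₂ := hl Y hY
    rw [← hT] at q₂
    have q₃ : C₃ * Y ^ (5 / 6 - δ) ≤ |C₃| * (D * T) :=
      (mul_le_mul_of_nonneg_right (le_abs_self C₃) (by positivity)).trans (by gcongr)
    linarith
  have hs' : Y ^ (-(η / 2)) ≤ a := (not_le.1 hs).le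
  rcases hc with hc | hc | hc
  · exact absurd hc hs
  · have q := hbil Y a B A γ α hY₀ hs' ha1 hB hA
      (hc.trans (Real.rpow_le_rpow_of_exponent_le hY1 (by linarith))) sγ sα dγ dα bα
    rw [Bil_comm, mul_div_assoc, ← hT] at q
    linarith
  · have hB'' : B ≤ Y ^ (1 / 2 - η / 2) := by
      have : Y ^ (1 / 2 + η) * B ≤ Y ^ (1 / 2 + η) * Y ^ (1 / 2 - η / 2) := by
        calc Y ^ (1 / 2 + η) * B ≤ A * B := by gcongr
          _ ≤ Y ^ (1 + η / 2) := hup.le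
          _ = _ := by
              rw [← Real.rpow_add hY0]
              congr 1
              ring
      exact le_of_mul_le_mul_left this (by positivity)
    have q := hbil Y a A B α γ hY₀ hs' ha1 hA1 hB' hB'' sα sγ dα dγ bγ
    rw [mul_div_assoc, ← hT] at q
    linarith

theorem twoc_step {Y : ℝ} (hY : 3 ≤ Y) (c : ℝ) :
    Real.log Y * (Y ^ (5 / 6 : ℝ) / Real.log Y ^ (c + 1)) = Y ^ (5 / 6 : ℝ) / Real.log Y ^ c := by
  have hL : 0 < Real.log Y := Real.log_pos (by linarith)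
  rw [Real.rpow_add_one hL.ne']
  have : 0 < Real.log Y ^ c := by positivity
  field_simp

theorem twoc_one_le_log {Y : ℝ} (hY : 3 ≤ Y) : 1 ≤ Real.log Y := by
  rw [Real.le_log_iff_exp_le (by linarith)]
  have := Real.exp_one_lt_d9
  linarith

/-- one dyadic block of rows off the barrier, all columns -/
theorem twoc_row (h1 : StBil) (h2 : StHi) (h4 : StRam) (l : ℤ) {η : ℝ} (hη : 0 < η)
    (hη1 : η ≤ 1 / 1000) : ∃ C Y₀ : ℝ, 0 < C ∧ ∀ (Y a A : ℝ) (α γ : O → ℂ), 3 ≤ Y → Y₀ ≤ Y →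
    Y ^ (-(17 / 100) : ℝ) ≤ a → a ≤ 1 → Y ^ (337 / 1000 : ℝ) ≤ A → A ≤ Y ^ (662 / 1000 : ℝ) →
    (a ≤ Y ^ (-(η / 2)) ∨ A ≤ Y ^ (1 / 2 - η) ∨ Y ^ (1 / 2 + η) ≤ A) →
    Supp α A (2 * A) → (∀ m, γ m ≠ 0 → PSq m) → Dv 1 α → Dv 1 γ → BVS 10000 1 α → BVS 100 1 γ →
    ‖Bil a Y (tw l α) (tw l γ) (2 * A) Y‖ ≤ C * (Y ^ (5 / 6 : ℝ) / Real.log Y ^ (5 : ℝ)) := by
  classical
  obtain ⟨C₁, Y₀, hC₁, hp⟩ := twoc_pair h1 h2 h4 l hη hη1
  obtain ⟨C₂, hC₂, hfar⟩ := twoc_far (1 / 1000) (by norm_num)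
  refine ⟨3 * C₁ + C₂, Y₀, by positivity,
    fun Y a A α γ hY hY₀ ha ha1 hA hA' hc sα sγ dα dγ bα bγ => ?_⟩
  have hY0 : 0 < Y := by linarith
  have hY1 : 1 ≤ Y := by linarith
  have hY2 : 2 ≤ Y := by linarith
  have hL : 1 ≤ Real.log Y := twoc_one_le_log hY
  have hst := twoc_step hY 5
  rw [show (5 : ℝ) + 1 = 6 by norm_num] at hst
  rw [← hst]
  obtain ⟨T, hT⟩ : ∃ T, T = Y ^ (5 / 6 : ℝ) / Real.log Y ^ (6 : ℝ) := ⟨_, rfl⟩
  have hT0 : 0 ≤ T := by rw [hT]; positivity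
  have ha0 : 0 < a := lt_of_lt_of_le (by positivity) ha
  have hA0 : 0 < A := lt_of_lt_of_le (by positivity) hA
  rw [← hT]
  have hγ : ∀ m, tw l γ m ≠ 0 → Prim m := fun m hm => (sγ m (left_ne_zero_of_mul hm)).1
  rw [Bil_dy_cols a Y _ _ _ hγ hY1 (le_NY hY1)]
  -- the cut columns
  obtain ⟨γc, hγc⟩ : ∃ γc : O → ℂ, γc = fun m => if nm m ≤ Y then γ m else 0 := ⟨_, rfl⟩
  have ecut : (fun m => if nm m ≤ Y then tw l γ m else 0) = tw l γc := by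
    funext m
    simp only [hγc, tw]
    split_ifs <;> simp
  have sγc : ∀ m, γc m ≠ 0 → PSq m := fun m hm => sγ m fun h0 => hm (by simp [hγc, h0])
  have dγc : Dv 1 γc := fun m => by
    refine le_trans ?_ (dγ m)
    simp only [hγc]
    split_ifs <;> simp
  have bγc : BVS (2 * 100 * 2) 1 γc := by
    have := bγ.mul_bv (bv_le Y)
    convert this using 2 with m
    simp only [hγc, nm]
    split_ifs <;> simp
  have q₂ : ‖∑ j ∈ Finset.range (NY Y), Bil a Y (tw l α)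
      (dy j fun m => if nm m ≤ Y then tw l γ m else 0) (2 * A) (2 * 2 ^ j)‖ ≤
      3 * Real.log Y * (C₁ * T) := by
    refine (norm_sum_le _ _).trans ?_
    refine (Finset.sum_le_card_nsmul _ _ (C₁ * T) fun j _ => ?_).trans ?_
    · rw [ecut, tw_dy, hT]
      exact hp Y a A (2 ^ j) α (dy j γc) hY2 hY₀ ha ha1 hA hA' (one_le_pow₀ (by norm_num)) hc sα
        (supp_dy j sγc) dα (Dv.dy dγc j) bα ((BVS.dy bγc j).mono (by norm_num) le_rfl)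
    · rw [Finset.card_range, nsmul_eq_mul]
      have := NY_le hY2
      gcongr
  have q₁ : ‖∑ x ∈ ball (2 * A), tw l α x * tw l γ 1 * f0 x * (LW a Y (nm x) : ℂ)‖ ≤ C₂ * T := by
    have n1 : nm (1 : O) = 1 := nm_unit isUnit_one
    have e : ∑ x ∈ ball (2 * A), tw l α x * tw l γ 1 * f0 x * (LW a Y (nm x) : ℂ) =
        Bil a Y (tw l α) (fun m => if m = 1 then tw l γ 1 else 0) (2 * A) (2 * (1 / 2)) := by
      unfold Bil
      refine Finset.sum_congr rfl fun x _ => ?_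
      rw [Finset.sum_eq_single 1]
      · simp
      · intro b _ hb
        simp [hb]
      · intro h
        exact absurd (mem_ball.2 (by rw [n1]; norm_num)) h
    rw [e, hT]
    refine hfar Y a A (1 / 2) _ _ hY2 ha0 ha1 hA0 (by norm_num) (twoc_supp sα l) (fun b hb => ?_)
      (Dv.tw dα l) (fun b => ?_) (Or.inl ?_)
    · obtain rfl : b = 1 := by
        by_contra h
        exact hb (if_neg h)
      exact ⟨psq_one, by rw [n1]; norm_num, by rw [n1]; norm_num⟩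
    · by_cases h : b = 1
      · subst h
        simpa using Dv.tw dγ l 1
      · simpa [h] using dn_nonneg b
    · have : Y ^ (662 / 1000 : ℝ) ≤ Y ^ (1 - 1 / 1000 : ℝ) :=
        Real.rpow_le_rpow_of_exponent_le hY1 (by norm_num)
      linarith
  refine (norm_add_le _ _).trans ?_
  have q₃ : C₂ * T ≤ Real.log Y * (C₂ * T) := le_mul_of_one_le_left (by positivity) hL
  linarith

/-- `η` from `block_bar`.  Rows dyadic, `A = 2^i ∈ [Y^0.34 / 2, Y^0.662]` (other blocks vanish).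
`a ≤ Y^(-η/2)`: columns dyadic, `Bil_far` (`ε = 1/2000`) or `StHi`.  Else: `A ∈ [Y^(1/2-η), Y^(1/2+η)]`:
`block_bar` (or the block vanishes); `A < Y^(1/2-η)`: `Bil_comm`, `block_bil` with columns `dy i β`;
`A > Y^(1/2+η)`: `block_bil` with columns `dy j γ`, `Bil_far` (`ε = min (η/2) (1/2000)`) gives
`Y^0.337 ≤ 2^j ≤ Y^(1/2-η/2)`.  At most `(3 log Y)²` blocks.  Bounded `Y`: `Bil_bdd`. -/
theorem typeII (h1 : StBil) (h2 : StHi) (h3 : StBar) (h4 : StRam) (l : ℤ) : ∃ C : ℝ, 0 < C ∧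
    ∀ (Y a y : ℝ) (β γ : O → ℂ), 2 ≤ Y → Y ^ (-(17 / 100) : ℝ) ≤ a → a ≤ 1 →
    (∀ b, β b ≠ 0 → PSq b ∧ Y ^ (34 / 100 : ℝ) < nm b ∧ nm b ≤ Y ^ (662 / 1000 : ℝ)) → Dv 1 β → BVS 100 1 β →
    (∀ m, γ m ≠ 0 → PSq m) → Dv 1 γ → BVS 100 1 γ →
    ((∃ b, β b ≠ 0 ∧ Y ^ (499 / 1000 : ℝ) ≤ nm b) → Y ^ (15 / 100 : ℝ) ≤ y ∧ y ≤ Y ∧
      ∀ m, PSq m → Y ^ (4 / 10 : ℝ) ≤ nm m → nm m ≤ Y ^ (6 / 10 : ℝ) →
        ‖γ m - (gy 1000 y m : ℂ)‖ ≤ Y ^ (-(2 : ℝ))) →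
    ‖Bil a Y (tw l β) (tw l γ) Y Y‖ ≤ C * Y ^ (5 / 6 : ℝ) / Real.log Y ^ (4 : ℝ) := by
  obtain ⟨η, hη, hη1, hbar⟩ := block_bar h3 l
  obtain ⟨C₁, hC₁, hbar⟩ := hbar 5
  obtain ⟨C₂, Y₁, hC₂, hrow⟩ := twoc_row h1 h2 h4 l hη hη1
  obtain ⟨C₃, hC₃, hbdd⟩ := Bil_bdd 1
  obtain ⟨Y₀, hY₀⟩ : ∃ Y₀ : ℝ, Y₀ = max (max 3 Y₁) (2 ^ (1000 : ℝ)) := ⟨_, rfl⟩
  have hY₀3 : 3 ≤ Y₀ := by rw [hY₀]; exact (le_max_left _ _).trans (le_max_left _ _)
  have hL₀ : 0 < Real.log Y₀ := Real.log_pos (by linarith)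
  refine ⟨3 * (C₁ + C₂) + C₃ * Y₀ ^ 2 * Real.log Y₀ ^ (4 : ℝ), by positivity,
    fun Y a y β γ hY ha ha1 sβ dβ bβ sγ dγ bγ hb => ?_⟩
  have hY0 : 0 < Y := by linarith
  have hY1 : 1 ≤ Y := by linarith
  have hL : 0 < Real.log Y := Real.log_pos (by linarith)
  have ha0 : 0 < a := lt_of_lt_of_le (by positivity) ha
  rw [mul_div_assoc]
  obtain ⟨T, hT⟩ : ∃ T, T = Y ^ (5 / 6 : ℝ) / Real.log Y ^ (4 : ℝ) := ⟨_, rfl⟩
  have hT0 : 0 ≤ T := by rw [hT]; positivity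
  rw [← hT]
  rcases le_total Y Y₀ with hs | hs
  · have q₁ := hbdd Y a Y Y _ _ hY1 ha0 ha1 (Dv.tw dβ l) (Dv.tw dγ l)
    have q₂ : 1 ≤ Real.log Y₀ ^ (4 : ℝ) * T := by
      rw [hT, ← mul_div_assoc, le_div_iff₀ (by positivity), one_mul]
      calc Real.log Y ^ (4 : ℝ) ≤ Real.log Y₀ ^ (4 : ℝ) := by gcongr
        _ ≤ _ := le_mul_of_one_le_right (by positivity) (Real.one_le_rpow hY1 (by norm_num))
    have q₃ : C₃ * Y ^ 2 ≤ C₃ * Y₀ ^ 2 * (Real.log Y₀ ^ (4 : ℝ) * T) :=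
      calc C₃ * Y ^ 2 ≤ C₃ * Y₀ ^ 2 := by gcongr
        _ ≤ _ := le_mul_of_one_le_right (by positivity) q₂
    have q₄ : 0 ≤ 3 * (C₁ + C₂) * T := by positivity
    linarith
  have hY3 : 3 ≤ Y := hY₀3.trans hs
  have hY₁ : Y₁ ≤ Y := by
    refine le_trans ?_ hs
    rw [hY₀]
    exact (le_max_right _ _).trans (le_max_left _ _)
  have h2Y : 2 ≤ Y ^ (3 / 1000 : ℝ) := by
    have : (2 : ℝ) ^ (1000 : ℝ) ≤ Y := by
      refine le_trans ?_ hs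
      rw [hY₀]
      exact le_max_right _ _
    calc (2 : ℝ) = (2 ^ (1000 : ℝ)) ^ (1 / 1000 : ℝ) := by
          rw [← Real.rpow_mul (by norm_num)]
          norm_num
      _ ≤ Y ^ (1 / 1000 : ℝ) := by gcongr
      _ ≤ _ := Real.rpow_le_rpow_of_exponent_le hY1 (by norm_num)
  have hst := twoc_step hY3 4
  rw [show (4 : ℝ) + 1 = 5 by norm_num, ← hT] at hst
  obtain ⟨T', hT'⟩ : ∃ T', T' = Y ^ (5 / 6 : ℝ) / Real.log Y ^ (5 : ℝ) := ⟨_, rfl⟩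
  have hT'0 : 0 ≤ T' := by rw [hT']; positivity
  rw [← hT'] at hst
  have hβ : ∀ x, tw l β x ≠ 0 → 1 < nm x ∧ nm x ≤ Y := fun x hx => by
    obtain ⟨-, p₁, p₂⟩ := sβ x (left_ne_zero_of_mul hx)
    refine ⟨lt_of_le_of_lt (Real.one_le_rpow hY1 (by norm_num)) p₁, p₂.trans ?_⟩
    calc Y ^ (662 / 1000 : ℝ) ≤ Y ^ (1 : ℝ) := Real.rpow_le_rpow_of_exponent_le hY1 (by norm_num)
      _ = Y := Real.rpow_one Y
  rw [Bil_dy_rows a Y _ _ Y hβ (le_NY hY1)]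
  have key : ∀ i : ℕ, ‖Bil a Y (dy i (tw l β)) (tw l γ) (2 * 2 ^ i) Y‖ ≤ (C₁ + C₂) * T' := by
    intro i
    rw [tw_dy]
    have e₁ : 0 ≤ C₁ * T' := by positivity
    have e₂ : 0 ≤ C₂ * T' := by positivity
    by_cases hz : ∀ b, dy i β b = 0
    · have : Bil a Y (tw l (dy i β)) (tw l γ) (2 * 2 ^ i) Y = 0 := by simp [Bil, tw, hz]
      rw [this, norm_zero]
      positivity
    push Not at hz
    obtain ⟨b, hb0⟩ := hz
    have sα := supp_dy i (γ := β) fun b h => (sβ b h).1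
    obtain ⟨-, r₁, r₂⟩ := sα b hb0
    have hβb : β b ≠ 0 := fun h => hb0 (by simp [dy, h])
    obtain ⟨-, r₃, r₄⟩ := sβ b hβb
    have hA : Y ^ (337 / 1000 : ℝ) ≤ 2 ^ i := by
      have : Y ^ (34 / 100 : ℝ) = Y ^ (3 / 1000 : ℝ) * Y ^ (337 / 1000 : ℝ) := by
        rw [← Real.rpow_add hY0]
        norm_num
      have h' : 2 * Y ^ (337 / 1000 : ℝ) ≤ Y ^ (3 / 1000 : ℝ) * Y ^ (337 / 1000 : ℝ) := by gcongr
      linarith
    by_cases hc : a ≤ Y ^ (-(η / 2)) ∨ (2 : ℝ) ^ i ≤ Y ^ (1 / 2 - η) ∨ Y ^ (1 / 2 + η) ≤ 2 ^ i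
    · have q := hrow Y a (2 ^ i) (dy i β) γ hY3 hY₁ ha ha1 hA (by linarith) hc sα sγ (Dv.dy dβ i) dγ
        ((BVS.dy bβ i).mono (by norm_num) le_rfl) bγ
      rw [← hT'] at q
      linarith
    · push Not at hc
      obtain ⟨c₁, c₂, c₃⟩ := hc
      have c₄ : Y ^ (499 / 1000 : ℝ) ≤ Y ^ (1 / 2 - η) :=
        Real.rpow_le_rpow_of_exponent_le hY1 (by linarith)
      have c₅ : Y ^ (-η) ≤ Y ^ (-(η / 2)) := Real.rpow_le_rpow_of_exponent_le hY1 (by linarith)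
      obtain ⟨y₁, y₂, y₃⟩ := hb ⟨b, hβb, by linarith⟩
      have q := hbar Y a (2 ^ i) y (dy i β) γ hY (by linarith) ha1 c₂.le c₃.le y₁ y₂ sα (Dv.dy dβ i) dγ y₃
      rw [mul_div_assoc, ← hT'] at q
      linarith
  refine (norm_sum_le _ _).trans ((Finset.sum_le_card_nsmul _ _ _ fun i _ => key i).trans ?_)
  rw [Finset.card_range, nsmul_eq_mul]
  have q₁ : (NY Y : ℝ) * ((C₁ + C₂) * T') ≤ 3 * Real.log Y * ((C₁ + C₂) * T') := by
    have := NY_le hY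
    gcongr
  have q₂ : 0 ≤ C₃ * Y₀ ^ 2 * Real.log Y₀ ^ (4 : ℝ) * T := by positivity
  have q₃ : 3 * Real.log Y * ((C₁ + C₂) * T') = 3 * (C₁ + C₂) * T := by rw [← hst]; ring
  linarith

end Crest.Agent.R12.SI
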