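import Crest.Agent.R12.SI.Conv
import Crest.Agent.R12.SI.Two

/-! Row 12, block SI: the Buchstab integral and the two large primes.  Prefix for helper lemmas: `bu_`. -/

set_option autoImplicit false

namespace Crest.Agent.R12.SI

open Crest.Agent.R17 MeasureTheory
open scoped ComplexConjugate

theorem bua_sum (κ : ℕ) (y : ℝ) (n : O) :
    ∑ p ∈ pfs n, (y / nm p) ^ κ = y ^ κ * ∑ p ∈ pfs n, (nm p)⁻¹ ^ κ := by
  rw [Finset.mul_sum]
  exact Finset.sum_congr rfl fun p _ => by rw [div_eq_mul_inv, mul_pow]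

theorem bua_gy (κ : ℕ) (y : ℝ) (n : O) :
    gy κ y n = Real.exp (-(y ^ κ * ∑ p ∈ pfs n, (nm p)⁻¹ ^ κ)) := by
  rw [← bua_sum, ← Finset.sum_neg_distrib, Real.exp_sum]
  rfl

theorem bua_cont (κ : ℕ) (c : ℝ) {y₁ y₀ : ℝ} (h1 : 0 < y₁) (h : y₁ ≤ y₀) (n : O) :
    ContinuousOn (fun y => c / y * ((∑ p ∈ pfs n, (y / nm p) ^ κ) * gy κ y n)) (Set.uIcc y₁ y₀) := by
  simp only [bua_sum, bua_gy]
  refine ContinuousOn.mul (continuousOn_const.div continuousOn_id fun y hy => ?_) (by fun_prop)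
  rw [Set.uIcc_of_le h] at hy
  exact (h1.trans_le hy.1).ne'

theorem bua_sub (k : ℕ) {y₁ y₀ : ℝ} (h1 : 0 < y₁) (h : y₁ ≤ y₀) (n : O) :
    gy (k + 1) y₁ n - gy (k + 1) y₀ n =
      ∫ y in y₁..y₀, (k + 1 : ℝ) / y * ((∑ p ∈ pfs n, (y / nm p) ^ (k + 1)) * gy (k + 1) y n) := by
  rw [intervalIntegral.integral_eq_sub_of_hasDerivAt (f := fun y => -gy (k + 1) y n) ?_
    (bua_cont _ _ h1 h n).intervalIntegrable]
  · ring
  · intro y hy
    rw [Set.uIcc_of_le h] at hy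
    have hy0 := (h1.trans_le hy.1).ne'
    simp only [bua_sum, bua_gy]
    generalize ∑ p ∈ pfs n, (nm p)⁻¹ ^ (k + 1) = s
    refine (((hasDerivAt_pow (k + 1) y).mul_const s).neg.exp.neg).congr_deriv ?_
    simp only [Nat.add_sub_cancel, Pi.neg_apply]
    push_cast
    field_simp
    ring

/-- `gy κ y n = exp (-y^κ ∑ N p^(-κ))`, fundamental theorem of calculus -/
theorem gy_sub {y₁ y₀ : ℝ} (h1 : 0 < y₁) (h : y₁ ≤ y₀) (n : O) :
    gy 1000 y₁ n - gy 1000 y₀ n =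
      ∫ y in y₁..y₀, 1000 / y * ((∑ p ∈ pfs n, (y / nm p) ^ 1000) * gy 1000 y n) := by
  have := bua_sub 999 h1 h n
  rwa [show ((999 : ℕ) + 1 : ℝ) = 1000 by norm_num] at this

theorem bua_fst {n : O} (hn : Prim n) (f : O → ℂ) : ∑ q ∈ anti n, f q.1 = ∑ d ∈ pdiv n, f d := by
  refine Finset.sum_bij (fun p _ => p.1) ?_ ?_ ?_ fun _ _ => rfl
  · intro p hp
    obtain ⟨h₁, -, h⟩ := mem_anti.1 hp
    exact (mem_pdiv hn.ne_zero).2 ⟨h₁, h ▸ dvd_mul_right _ _⟩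
  · intro p hp q hq h
    obtain ⟨h₁, -, h₃⟩ := mem_anti.1 hp
    obtain ⟨-, -, h₄⟩ := mem_anti.1 hq
    refine Prod.ext h (mul_left_cancel₀ h₁.ne_zero ?_)
    rw [h₃, ← h₄]
    exact congrArg (· * q.2) h.symm
  · intro d hd
    obtain ⟨h₁, h₂⟩ := (mem_pdiv hn.ne_zero).1 hd
    obtain ⟨m, hm, h⟩ := h₁.exists_mul hn h₂
    exact ⟨(d, m), mem_anti.2 ⟨h₁, hm, h.symm⟩, rfl⟩

theorem bua_assoc (n : O) (F : O → O → O → ℂ) :
    ∑ q ∈ anti n, ∑ r ∈ anti q.1, F r.1 r.2 q.2 = ∑ q ∈ anti n, ∑ r ∈ anti q.2, F q.1 r.1 r.2 := by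
  rw [Finset.sum_sigma', Finset.sum_sigma']
  refine Finset.sum_nbij' (fun x => ⟨(x.2.1, x.2.2 * x.1.2), (x.2.2, x.1.2)⟩)
    (fun x => ⟨(x.1.1 * x.2.1, x.2.2), (x.1.1, x.2.1)⟩) ?_ ?_ ?_ ?_ fun _ _ => rfl
  · rintro ⟨⟨b, m⟩, ⟨p, d⟩⟩ hx
    simp only [Finset.mem_sigma, mem_anti] at hx ⊢
    obtain ⟨⟨-, h2, h3⟩, h4, h5, h6⟩ := hx
    exact ⟨⟨h4, h5.mul h2, by rw [← mul_assoc, h6, h3]⟩, h5, h2, trivial⟩
  · rintro ⟨⟨p, b⟩, ⟨d, m⟩⟩ hx
    simp only [Finset.mem_sigma, mem_anti] at hx ⊢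
    obtain ⟨⟨h1, -, h3⟩, h4, h5, h6⟩ := hx
    exact ⟨⟨h1.mul h4, h5, by rw [mul_assoc, h6, h3]⟩, h1, h4, trivial⟩
  · rintro ⟨⟨b, m⟩, ⟨p, d⟩⟩ hx
    simp only [Finset.mem_sigma, mem_anti] at hx ⊢
    rw [hx.2.2.2]
  · rintro ⟨⟨p, b⟩, ⟨d, m⟩⟩ hx
    simp only [Finset.mem_sigma, mem_anti] at hx ⊢
    rw [hx.2.2.2]

open Classical in
theorem bua_Lam (Y : ℝ) {p m : O} (hp : Prime p) (h : Prim p) (hm : Prim m) (hc : IsCoprime p m) :
    Lam Y (p * m) = ∑ d ∈ pdiv m,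
      if Y ^ (34 / 100 : ℝ) < nm (p * d) ∧ nm d ≤ Y ^ (34 / 100 : ℝ) then mu d else 0 := by
  unfold Lam
  rw [sum_pdiv_mul hp.ne_zero hm.ne_zero hc, sum_pdiv_sqfree hp.squarefree, pfs_prime hp h,
    show ({p} : Finset O) = insert p ∅ from rfl, Finset.sum_powerset_insert (Finset.notMem_empty p)]
  simp only [Finset.powerset_empty, Finset.sum_singleton, Finset.prod_empty, one_mul, insert_empty_eq,
    Finset.prod_singleton]
  rw [← Finset.sum_add_distrib]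
  refine Finset.sum_congr rfl fun d hd => ?_
  obtain ⟨h1, h2⟩ := pra_of_mem_pdiv hd
  rw [mu_mul (hc.of_isCoprime_of_dvd_right h2), mu_prime hp]
  have h3 : nm d ≤ nm (p * d) := nm_le_of_dvd (dvd_mul_left d p) (h.mul h1).ne_zero
  by_cases a1 : nm (p * d) ≤ Y ^ (34 / 100 : ℝ)
  · rw [if_pos (h3.trans a1), if_pos a1, if_neg fun h => absurd a1 (not_le.2 h.1)]
    ring
  · rw [if_neg a1, add_zero]
    exact if_congr ⟨fun h => ⟨not_le.1 a1, h⟩, fun h => h.2⟩ rfl rfl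

/-- for a prime `p ∣ n = p n'`: `Lam n = ∑_{d ∣ n', D < N (p d), N d ≤ D} μ(d)`; then re-index
`(p, d, m)` with `p d m = n` -/
theorem cv_bet {Y y P : ℝ} {n : O} (hn : PSq n) (hP : nm n ≤ P) :
    cv (bet Y y 0 P) (gam y) n =
      Lam Y n * (((∑ p ∈ pfs n, (y / nm p) ^ 1000) * gy 1000 y n : ℝ) : ℂ) := by
  classical
  set F : O → O → O → ℂ := fun p d _ =>
    if Prime p then (((y / nm p) ^ 1000 * gy 1000 y n : ℝ) : ℂ) *
      (if Y ^ (34 / 100 : ℝ) < nm (p * d) ∧ nm d ≤ Y ^ (34 / 100 : ℝ) then mu d else 0) else 0 with hF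
  have e1 : cv (bet Y y 0 P) (gam y) n = ∑ q ∈ anti n, ∑ r ∈ anti q.1, F r.1 r.2 q.2 := by
    refine Finset.sum_congr rfl fun q hq => ?_
    obtain ⟨h1, h2, h3⟩ := mem_anti.1 hq
    obtain ⟨h4, h5, h6⟩ := (psq_mul_iff h1 h2).1 (h3 ▸ hn)
    rw [bet, gam, if_pos h4, if_pos h5, Finset.sum_mul]
    refine Finset.sum_congr rfl fun r hr => ?_
    obtain ⟨k1, k2, k3⟩ := mem_anti.1 hr
    obtain ⟨-, -, k6⟩ := (psq_mul_iff k1 k2).1 (k3 ▸ h4)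
    simp only [hF]
    rw [k3]
    by_cases hp : Prime r.1
    · have a1 : nm r.1 ≤ P :=
        (nm_le_of_dvd ((k3 ▸ dvd_mul_right _ _ : r.1 ∣ q.1).trans (h3 ▸ dvd_mul_right _ _))
          hn.ne_zero).trans hP
      have a2 : gy 1000 y n = gx 1000 y (nm r.1) * gy 1000 y r.2 * gy 1000 y q.2 := by
        rw [← h3, gy_mul _ _ h1.ne_zero h2.ne_zero h6, ← k3, gy_mul _ _ k1.ne_zero k2.ne_zero k6,
          gy_prime _ _ hp k1]
      rw [if_pos hp, a2]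
      by_cases hc : Y ^ (34 / 100 : ℝ) < nm q.1 ∧ nm r.2 ≤ Y ^ (34 / 100 : ℝ)
      · rw [if_pos hc, if_pos ⟨hp, nm_pos k1.ne_zero, a1, hc⟩]
        generalize (y / nm r.1) ^ 1000 = u
        push_cast
        ring
      · rw [if_neg hc, if_neg fun h => hc h.2.2.2, zero_mul, mul_zero]
    · rw [if_neg hp, if_neg fun h => hp h.1, zero_mul]
  have e2 : ∀ q ∈ anti n, ∑ r ∈ anti q.2, F q.1 r.1 r.2 =
      if Prime q.1 then (((y / nm q.1) ^ 1000 * gy 1000 y n : ℝ) : ℂ) * Lam Y n else 0 := by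
    intro q hq
    obtain ⟨h1, h2, h3⟩ := mem_anti.1 hq
    obtain ⟨-, -, h6⟩ := (psq_mul_iff h1 h2).1 (h3 ▸ hn)
    simp only [hF]
    split_ifs with hp
    · rw [← Finset.mul_sum, bua_fst h2 fun d =>
        if Y ^ (34 / 100 : ℝ) < nm (q.1 * d) ∧ nm d ≤ Y ^ (34 / 100 : ℝ) then mu d else 0,
        ← bua_Lam Y hp h1 h2 h6, h3]
    · exact Finset.sum_const_zero
  rw [e1, bua_assoc, Finset.sum_congr rfl e2, bua_fst hn.1 fun p =>
    if Prime p then (((y / nm p) ^ 1000 * gy 1000 y n : ℝ) : ℂ) * Lam Y n else 0, ← Finset.sum_filter,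
    ← Finset.sum_mul, mul_comm, Finset.sum_mul, Complex.ofReal_sum]
  rfl

theorem bet_split (Y y : ℝ) {P₁ P₂ P₃ : ℝ} (h1 : P₁ ≤ P₂) (h2 : P₂ ≤ P₃) (b : O) :
    bet Y y P₁ P₃ b = bet Y y P₁ P₂ b + bet Y y P₂ P₃ b := by
  classical
  unfold bet
  split_ifs
  · rw [← Finset.sum_add_distrib]
    refine Finset.sum_congr rfl fun p _ => ?_
    rcases le_or_gt (nm p.1) P₂ with h | h
    · rw [if_neg (c := _ ∧ P₂ < _ ∧ _) fun h' => h.not_gt h'.2.1, add_zero]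
      exact if_congr ⟨fun ⟨a, b, _, d⟩ => ⟨a, b, h, d⟩, fun ⟨a, b, _, d⟩ => ⟨a, b, h.trans h2, d⟩⟩
        rfl rfl
    · rw [if_neg (c := _ ∧ _ ∧ _ ≤ P₂ ∧ _) fun h' => h.not_ge h'.2.2.1, zero_add]
      exact if_congr ⟨fun ⟨a, _, d⟩ => ⟨a, h, d⟩, fun ⟨a, _, d⟩ => ⟨a, h1.trans_lt h, d⟩⟩ rfl rfl
  · rw [add_zero]

theorem bub_le_one (y x : ℝ) : (y / x) ^ 1000 * gx 1000 y x ≤ 1 := by
  rw [gx, Real.exp_neg, ← div_eq_mul_inv, div_le_one (Real.exp_pos _)]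
  linarith [Real.add_one_le_exp ((y / x) ^ 1000)]

theorem bub_coef {y B : ℝ} (hy : 0 ≤ y) {c : O} (d : O)
    (h : (y / nm c) ^ 1000 * gx 1000 y (nm c) ≤ B) :
    ‖(((y / nm c) ^ 1000 * gx 1000 y (nm c) * gy 1000 y d : ℝ) : ℂ) * mu d‖ ≤ B := by
  have h1 := nm_nonneg c
  have h2 := gx_pos 1000 y (nm c)
  have h3 := gy_pos 1000 y d
  rw [norm_mul, Complex.norm_of_nonneg (by positivity)]
  exact (mul_le_of_le_one_right (by positivity) (norm_mu_le d)).trans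
    ((mul_le_of_le_one_right (by positivity) (gy_le_one _ hy d)).trans h)

theorem bub_norm (Y : ℝ) {y B : ℝ} (hy : 0 ≤ y) (P₁ P₂ : ℝ) (hB : 0 ≤ B)
    (h : ∀ x, 0 < x → P₁ < x → (y / x) ^ 1000 * gx 1000 y x ≤ B) (b : O) :
    ‖bet Y y P₁ P₂ b‖ ≤ B * dn b ^ 1 := by
  unfold bet
  split_ifs with hb
  · refine (norm_sum_le _ _).trans ((Finset.sum_le_card_nsmul _ _ B fun p _ => ?_).trans_eq ?_)
    · split_ifs with hp
      · exact bub_coef hy _ (h _ (nm_pos hp.1.ne_zero) hp.2.1)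
      · rwa [norm_zero]
    · rw [nsmul_eq_mul, card_anti hb.1, pow_one, mul_comm]
  · rw [norm_zero]
    exact mul_nonneg hB (pow_nonneg (dn_nonneg b) _)

/-- `u exp (-u) ≤ 1` -/
theorem dv_bet (Y : ℝ) {y : ℝ} (hy : 0 ≤ y) (P₁ P₂ : ℝ) : Dv 1 (bet Y y P₁ P₂) := by
  intro b
  simpa using bub_norm Y hy P₁ P₂ zero_le_one (fun x _ _ => bub_le_one y x) b

/-- `(y / N p)^1000 ≤ Y^(-2)` -/
theorem norm_bet_far {Y y : ℝ} (hY : 1 ≤ Y) (hy : 0 < y) (P : ℝ) (b : O) :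
    ‖bet Y y (y * Y ^ (2 / 1000 : ℝ)) P b‖ ≤ Y ^ (-(2 : ℝ)) * dn b ^ 1 := by
  have hY0 : 0 < Y := by linarith
  refine bub_norm Y hy.le _ P (by positivity) (fun x hx h => ?_) b
  refine (mul_le_of_le_one_right (by positivity) (gx_le_one _ hy.le hx.le)).trans ?_
  have h1 : y / x ≤ Y ^ (-(2 / 1000) : ℝ) := by
    rw [Real.rpow_neg hY0.le, div_le_iff₀ hx, le_inv_mul_iff₀ (by positivity), mul_comm]
    exact h.le
  refine (pow_le_pow_left₀ (by positivity) h1 _).trans_eq ?_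
  rw [← Real.rpow_mul_natCast hY0.le]
  norm_num

theorem supp_bet {Y y P : ℝ} (hY : 1 ≤ Y) {b : O} (h : bet Y y 0 P b ≠ 0) :
    PSq b ∧ Y ^ (34 / 100 : ℝ) < nm b ∧ nm b ≤ P * Y ^ (34 / 100 : ℝ) := by
  classical
  unfold bet at h
  split_ifs at h with hb
  · obtain ⟨p, hp, h1⟩ := Finset.exists_ne_zero_of_sum_ne_zero h
    obtain ⟨-, h2, h3, h4, h5⟩ := (ite_ne_right_iff.1 h1).1
    refine ⟨hb, h4, ?_⟩
    rw [← (mem_anti.1 hp).2.2, nm_mul]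
    exact mul_le_mul h3 h5 (nm_nonneg _) (h2.le.trans h3)
  · exact absurd rfl h

theorem bub_prime {q c : O} (hq : Prime q) (hc : Prim c) : Prime (q * c) ↔ c = 1 :=
  ⟨fun h => hc.eq_one_of_isUnit ((h.irreducible.isUnit_or_isUnit rfl).resolve_left hq.not_isUnit),
    fun h => by rwa [h, mul_one]⟩

theorem bub_psq {q b : O} (hb : PSq b) (hq : Prime q) (hq' : Prim q) (h : ¬ q ∣ b) : PSq (q * b) :=
  (psq_mul_iff hq' hb.1).2 ⟨psq_prime hq hq', hb, hq.irreducible.coprime_iff_not_dvd.2 h⟩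

theorem bub_anti {q b : O} (hq : Prime q) (hq' : Prim q) (h : ¬ q ∣ b) (f : O × O → ℂ) :
    ∑ p ∈ anti (q * b), f p = ∑ p ∈ anti b, (f (q * p.1, p.2) + f (p.1, q * p.2)) := by
  classical
  rw [Finset.sum_add_distrib, ← Finset.sum_filter_add_sum_filter_not _ fun p => q ∣ p.1]
  congr 1 <;> symm
  · refine Finset.sum_nbij (fun p => (q * p.1, p.2)) (fun p hp => ?_) (fun p _ p' _ e => ?_)
      (fun p hp => ?_) fun _ _ => rfl
    · obtain ⟨h1, h2, h3⟩ := mem_anti.1 hp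
      exact Finset.mem_filter.2 ⟨mem_anti.2 ⟨hq'.mul h1, h2, by rw [← h3, mul_assoc]⟩, dvd_mul_right _ _⟩
    · obtain ⟨e1, e2⟩ := Prod.mk.inj e
      exact Prod.ext (mul_left_cancel₀ hq.ne_zero e1) e2
    · obtain ⟨h0, c, hc⟩ := Finset.mem_filter.1 hp
      obtain ⟨h1, h2, h3⟩ := mem_anti.1 h0
      exact ⟨(c, p.2), mem_anti.2 ⟨hq'.of_mul (hc ▸ h1), h2, mul_left_cancel₀ hq.ne_zero (by
        rw [← h3, hc, mul_assoc])⟩, Prod.ext hc.symm rfl⟩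
  · refine Finset.sum_nbij (fun p => (p.1, q * p.2)) (fun p hp => ?_) (fun p _ p' _ e => ?_)
      (fun p hp => ?_) fun _ _ => rfl
    · obtain ⟨h1, h2, h3⟩ := mem_anti.1 hp
      exact Finset.mem_filter.2 ⟨mem_anti.2 ⟨h1, hq'.mul h2, by rw [← h3, mul_left_comm]⟩,
        fun h' => h (h3 ▸ h'.mul_right _)⟩
    · obtain ⟨e1, e2⟩ := Prod.mk.inj e
      exact Prod.ext e1 (mul_left_cancel₀ hq.ne_zero e2)
    · obtain ⟨h0, h'⟩ := Finset.mem_filter.1 hp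
      obtain ⟨h1, h2, h3⟩ := mem_anti.1 h0
      obtain ⟨c, hc⟩ := (hq.dvd_or_dvd (h3 ▸ dvd_mul_right q b)).resolve_left h'
      exact ⟨(p.1, c), mem_anti.2 ⟨h1, hq'.of_mul (hc ▸ h2), mul_left_cancel₀ hq.ne_zero (by
        rw [← h3, hc, mul_left_comm])⟩, Prod.ext rfl hc.symm⟩

/-- `anti (q b) = {(q c, d)} ∪ {(c, q d)}` over `(c, d) ∈ anti b`; the term `p = q` (`c = 1`) and the
terms `p ∣ b` are each `const · gx-type · indicator of an interval in N q` (`bv_pow_gx`, `bv_gx`,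
`bv_Ioc`, `BV.mul`: `32` each), `1 + ω(b) ≤ 2 dn b` -/
theorem bvs_bet (Y : ℝ) {y : ℝ} (hy : 0 ≤ y) (P : ℝ) : BVS 100 1 (bet Y y 0 P) := by
  classical
  intro b hb
  obtain ⟨D, hD⟩ : ∃ D, D = Y ^ (34 / 100 : ℝ) := ⟨_, rfl⟩
  have hb0 := nm_pos hb.ne_zero
  refine ⟨fun n => ∑ p ∈ anti b,
    ((if p.1 = 1 ∧ nm p.2 ≤ D then (gy 1000 y p.2 : ℂ) * mu p.2 else 0) *
      ((((y / n) ^ 1000 * gx 1000 y n : ℝ) : ℂ) * if D / nm b < (n : ℝ) ∧ (n : ℝ) ≤ P then 1 else 0) +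
    -(if Prime p.1 ∧ 0 < nm p.1 ∧ nm p.1 ≤ P then
        (((y / nm p.1) ^ 1000 * gx 1000 y (nm p.1) * gy 1000 y p.2 : ℝ) : ℂ) * mu p.2 else 0) *
      ((gx 1000 y n : ℂ) * if D / nm b < (n : ℝ) ∧ (n : ℝ) ≤ D / nm p.2 then 1 else 0)), ?_,
    fun q hq hq' hqb => ?_⟩
  · refine (BV.sum (anti b) (K := fun _ => 64) fun p _ => ?_).mono ?_
    · refine ((((bv_pow_gx 1000 hy).mul (bv_Ioc _ _)).const_mul _).add
        (((bv_gx 1000 hy).mul (bv_Ioc _ _)).const_mul _)).mono ?_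
      have h1 : ‖if p.1 = 1 ∧ nm p.2 ≤ D then (gy 1000 y p.2 : ℂ) * mu p.2 else 0‖ ≤ 1 := by
        split_ifs
        · rw [norm_mul, Complex.norm_of_nonneg (gy_pos _ _ _).le]
          exact mul_le_one₀ (gy_le_one _ hy _) (norm_nonneg _) (norm_mu_le _)
        · simp
      have h2 : ‖-(if Prime p.1 ∧ 0 < nm p.1 ∧ nm p.1 ≤ P then (((y / nm p.1) ^ 1000 *
          gx 1000 y (nm p.1) * gy 1000 y p.2 : ℝ) : ℂ) * mu p.2 else 0)‖ ≤ 1 := by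
        rw [norm_neg]
        split_ifs
        · exact bub_coef hy _ (bub_le_one _ _)
        · simp
      linarith
    · rw [Finset.sum_const, nsmul_eq_mul, card_anti hb.1, pow_one]
      linarith [dn_nonneg b]
  · rw [bet, if_pos (bub_psq hb hq hq' hqb), ← hD, bub_anti hq hq' hqb]
    refine Finset.sum_congr rfl fun p hp => ?_
    obtain ⟨h1, h2, h3⟩ := mem_anti.1 hp
    have hc : IsCoprime q p.2 :=
      hq.irreducible.coprime_iff_not_dvd.2 fun h => hqb (h3 ▸ h.mul_left _)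
    have hq0 := nm_pos hq.ne_zero
    rw [show ((nN q : ℕ) : ℝ) = nm q from rfl]
    simp only [nm_mul q b, nm_mul q p.2, div_lt_iff₀ hb0, le_div_iff₀ (nm_pos h2.ne_zero),
      bub_prime hq h1, gy_mul _ _ hq.ne_zero h2.ne_zero hc, gy_prime _ _ hq hq', mu_mul hc,
      mu_prime hq]
    congr 1
    · by_cases e : p.1 = 1
      · simp only [e, mul_one, hq0, true_and]
        by_cases e1 : nm q ≤ P <;> by_cases e2 : D < nm q * nm b <;> by_cases e3 : nm p.2 ≤ D <;>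
          simp only [e1, e2, e3, true_and, false_and, and_false, if_true, if_false, mul_zero,
            zero_mul, mul_one]
        push_cast
        ring
      · simp only [e, false_and, if_false, zero_mul]
    · by_cases e1 : Prime p.1 ∧ 0 < nm p.1 ∧ nm p.1 ≤ P <;>
        by_cases e2 : D < nm q * nm b ∧ nm q * nm p.2 ≤ D <;>
        simp only [← and_assoc] at e1 ⊢ <;>
        simp only [e1, e2, true_and, false_and, if_true, if_false, mul_zero, zero_mul, mul_one,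
          neg_zero]
      push_cast
      ring

theorem dv_gam {y : ℝ} (hy : 0 ≤ y) : Dv 1 (gam y) := by
  intro b
  unfold gam
  split_ifs with hb
  · rw [Complex.norm_of_nonneg (gy_pos _ _ _).le, pow_one]
    exact (gy_le_one _ hy b).trans (one_le_dn hb.ne_zero)
  · simpa using dn_nonneg b

theorem bvs_gam {y : ℝ} (hy : 0 ≤ y) : BVS 100 1 (gam y) := by
  intro b hb
  refine ⟨_, ((bv_gx 1000 hy).const_mul (gy 1000 y b)).mono ?_, fun q hq hq' hqb => ?_⟩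
  · rw [Complex.norm_of_nonneg (gy_pos _ _ _).le, pow_one]
    linarith [gy_le_one 1000 hy b, one_le_dn hb.ne_zero]
  · rw [gam, if_pos (bub_psq hb hq hq' hqb), gy_mul _ _ hq.ne_zero hb.ne_zero
      (hq.irreducible.coprime_iff_not_dvd.2 hqb), gy_prime _ _ hq hq', Complex.ofReal_mul, mul_comm]
    rfl

theorem dv_prw {Y : ℝ} (hY : 0 ≤ Y) (P₁ P₂ : ℝ) : Dv 1 (prw Y P₁ P₂) := by
  intro b
  by_cases hb : b = 0
  · rw [prw, if_neg fun h => h.1.ne_zero hb]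
    simpa using dn_nonneg b
  · rw [pow_one]
    exact (norm_prw_le hY _ _ b).trans (one_le_dn hb)

/-- `b = 1`: `gx` times an indicator; `b ≠ 1`: `q b` is not prime -/
theorem bvs_prw {Y : ℝ} (hY : 0 ≤ Y) (P₁ P₂ : ℝ) : BVS 100 1 (prw Y P₁ P₂) := by
  intro b hb
  have h1 := one_le_dn hb.ne_zero
  by_cases e : b = 1
  · refine ⟨_, ((bv_gx 1000 (Real.rpow_nonneg hY (32 / 100))).mul (bv_Ioc P₁ P₂)).mono
      (by linarith), fun q hq hq' _ => ?_⟩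
    simp only [e, mul_one, prw, hq, hq', true_and, mul_ite, mul_zero]
    rfl
  · refine ⟨_, (bv_const 0).mono (by rw [norm_zero]; positivity), fun q hq hq' _ => ?_⟩
    exact if_neg fun h => e ((bub_prime hq hb.1).1 h.1)

theorem bu_c_one {Y : ℝ} (hY : 2 ≤ Y) : 1 ≤ 600 * (Y ^ (5 / 6 : ℝ) / Real.log Y ^ (4 : ℝ)) := by
  have hY0 : 0 < Y := by linarith
  have hl : 0 < Real.log Y := Real.log_pos (by linarith)
  have h1 : Real.log Y ≤ Y ^ (5 / 24 : ℝ) / (5 / 24) := Real.log_le_rpow_div hY0.le (by norm_num)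
  have h2 : Real.log Y ^ (4 : ℝ) ≤ (Y ^ (5 / 24 : ℝ) / (5 / 24)) ^ (4 : ℝ) :=
    Real.rpow_le_rpow hl.le h1 (by norm_num)
  rw [Real.div_rpow (by positivity) (by norm_num), ← Real.rpow_mul hY0.le] at h2
  rw [← mul_div_assoc, one_le_div (by positivity)]
  refine h2.trans ?_
  have h3 : 0 < Y ^ (5 / 6 : ℝ) := by positivity
  norm_num
  linarith

theorem bu_c_cv_add (α α' γ : O → ℂ) (n : O) :
    cv (fun b => α b + α' b) γ n = cv α γ n + cv α' γ n := by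
  simp only [cv, add_mul, Finset.sum_add_distrib]

/-- for fixed `y`: `bet_split` at `P = y Y^0.002`, `conv_triv` for the far part, `conv_Bil` and `typeII`
for the rest (`N b ≥ Y^0.499` forces `y ≥ Y^0.157`) -/
theorem buch_fixed (h1 : StBil) (h2 : StHi) (h3 : StBar) (h4 : StRam) (l : ℤ) : ∃ C : ℝ, 0 < C ∧
    ∀ Y a y : ℝ, 2 ≤ Y → Y ^ (-(17 / 100) : ℝ) ≤ a → a ≤ 1 → Y⁻¹ ≤ y → y ≤ Y ^ (32 / 100 : ℝ) →
    ‖∑ n ∈ sball (Y ^ 2), FF l a Y n * cv (bet Y y 0 (Y ^ 2)) (gam y) n‖ ≤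
      C * Y ^ (5 / 6 : ℝ) / Real.log Y ^ (4 : ℝ) := by
  obtain ⟨C₁, hC₁, k₁⟩ := conv_triv l 1
  obtain ⟨C₂, hC₂, k₂⟩ := conv_Bil l 1
  obtain ⟨C₃, hC₃, k₃⟩ := typeII h1 h2 h3 h4 l
  refine ⟨600 * C₁ + 600 * C₂ + C₃, by positivity, fun Y a y hY ha ha1 hy hy1 => ?_⟩
  have hY1 : 1 ≤ Y := by linarith
  have hY0 : 0 < Y := by linarith
  have ha0 : 0 < a := lt_of_lt_of_le (by positivity) ha
  have hy0 : 0 < y := lt_of_lt_of_le (by positivity) hy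
  have hle : ∀ {s t : ℝ}, s ≤ t → Y ^ s ≤ Y ^ t := fun h => Real.rpow_le_rpow_of_exponent_le hY1 h
  set P := y * Y ^ (2 / 1000 : ℝ) with hP
  have hP0 : 0 ≤ P := by positivity
  have hP1 : P ≤ Y ^ (322 / 1000 : ℝ) :=
    calc P ≤ Y ^ (32 / 100 : ℝ) * Y ^ (2 / 1000 : ℝ) := mul_le_mul_of_nonneg_right hy1 (by positivity)
      _ = _ := by rw [← Real.rpow_add hY0]; norm_num
  have hP2 : P ≤ Y ^ 2 := hP1.trans ((hle (t := (2 : ℕ)) (by norm_num)).trans_eq (Real.rpow_natCast _ _))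
  have hs : ∀ b, bet Y y 0 P b ≠ 0 →
      PSq b ∧ Y ^ (34 / 100 : ℝ) < nm b ∧ nm b ≤ Y ^ (662 / 1000 : ℝ) := fun b hb => by
    obtain ⟨a1, a2, a3⟩ := supp_bet hY1 hb
    refine ⟨a1, a2, a3.trans ?_⟩
    calc P * Y ^ (34 / 100 : ℝ) ≤ Y ^ (322 / 1000 : ℝ) * Y ^ (34 / 100 : ℝ) := by gcongr
      _ = _ := by rw [← Real.rpow_add hY0]; norm_num
  have e : bet Y y 0 (Y ^ 2) = fun b => bet Y y 0 P b + bet Y y P (Y ^ 2) b :=
    funext fun b => bet_split Y y hP0 hP2 b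
  have t1 := k₁ Y a (Y ^ (-(2 : ℝ))) (bet Y y P (Y ^ 2)) (gam y) hY ha0 ha1 (by positivity)
    (norm_bet_far hY1 hy0 _) (dv_gam hy0.le)
  have t2 := k₂ Y a Y Y (bet Y y 0 P) (gam y) hY ha0 ha1 (dv_bet Y hy0.le _ _) (dv_gam hy0.le)
    fun x hx => by
      obtain ⟨a1, a2, a3⟩ := hs x hx
      refine ⟨a1.1, a3.trans ((hle (t := 1) (by norm_num)).trans_eq (Real.rpow_one _)), ?_⟩
      calc Y ^ (101 / 100 : ℝ) ≤ Y ^ (34 / 100 + 1 : ℝ) := hle (by norm_num)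
        _ = Y ^ (34 / 100 : ℝ) * Y := by rw [Real.rpow_add hY0, Real.rpow_one]
        _ ≤ _ := by gcongr
  have t3 := k₃ Y a y (bet Y y 0 P) (gam y) hY ha ha1 hs (dv_bet Y hy0.le _ _) (bvs_bet Y hy0.le _)
    (fun m hm => by
      by_contra h
      exact hm (by rw [gam, if_neg h])) (dv_gam hy0.le) (bvs_gam hy0.le) fun ⟨b, hb, hb'⟩ => by
      refine ⟨?_, hy1.trans ((hle (t := 1) (by norm_num)).trans_eq (Real.rpow_one _)),
        fun m hm _ _ => by rw [gam, if_pos hm, sub_self, norm_zero]; positivity⟩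
      have a3 := hb'.trans (supp_bet hY1 hb).2.2
      have a4 : Y ^ (15 / 100 : ℝ) * (Y ^ (2 / 1000 : ℝ) * Y ^ (34 / 100 : ℝ)) ≤ Y ^ (499 / 1000 : ℝ) := by
        rw [← Real.rpow_add hY0, ← Real.rpow_add hY0]
        exact hle (by norm_num)
      rw [hP, mul_assoc] at a3
      exact le_of_mul_le_mul_right (a4.trans a3) (by positivity)
  have t1' : C₁ * Y ^ (-(2 : ℝ)) * Y ^ (3 / 2 : ℝ) ≤ C₁ := by
    rw [mul_assoc, ← Real.rpow_add hY0]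
    exact mul_le_of_le_one_right hC₁.le (Real.rpow_le_one_of_one_le_of_nonpos hY1 (by norm_num))
  have t2' : C₂ / Y ≤ C₂ := div_le_self hC₂.le hY1
  have h600 := bu_c_one hY
  rw [e]
  simp only [bu_c_cv_add, mul_add, Finset.sum_add_distrib]
  have t4 := norm_add_le
    (∑ n ∈ sball (Y ^ 2), FF l a Y n * cv (bet Y y 0 P) (gam y) n -
      Bil a Y (tw l (bet Y y 0 P)) (tw l (gam y)) Y Y) (Bil a Y (tw l (bet Y y 0 P)) (tw l (gam y)) Y Y)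
  rw [sub_add_cancel] at t4
  refine (norm_add_le _ _).trans ?_
  rw [mul_div_assoc] at t3 ⊢
  nlinarith [mul_le_mul_of_nonneg_left h600 hC₁.le, mul_le_mul_of_nonneg_left h600 hC₂.le]

/-- `gy_sub`, exchange of the finite sum and the integral (continuity in `y`), `cv_bet`, `buch_fixed`,
`∫ dy / y ≤ 2 log Y` -/
theorem buch (h1 : StBil) (h2 : StHi) (h3 : StBar) (h4 : StRam) (l : ℤ) : ∃ C : ℝ, 0 < C ∧
    ∀ Y a : ℝ, 2 ≤ Y → Y ^ (-(17 / 100) : ℝ) ≤ a → a ≤ 1 →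
    ‖∑ n ∈ sball (Y ^ 2), FF l a Y n *
        (Lam Y n * ((gy 1000 Y⁻¹ n - gy 1000 (Y ^ (32 / 100 : ℝ)) n : ℝ) : ℂ))‖ ≤
      C * Y ^ (5 / 6 : ℝ) / Real.log Y ^ (3 : ℝ) := by
  obtain ⟨C, hC, h⟩ := buch_fixed h1 h2 h3 h4 l
  refine ⟨1320 * C, by positivity, fun Y a hY ha ha1 => ?_⟩
  have hY0 : 0 < Y := by linarith
  have hL : 0 < Real.log Y := Real.log_pos (by linarith)
  have p1 : 0 < Y⁻¹ := inv_pos.2 hY0
  have p2 : Y⁻¹ ≤ Y ^ (32 / 100 : ℝ) :=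
    (inv_le_one_of_one_le₀ (by linarith)).trans (Real.one_le_rpow (by linarith) (by norm_num))
  have e1 : ∑ n ∈ sball (Y ^ 2), FF l a Y n *
      (Lam Y n * ((gy 1000 Y⁻¹ n - gy 1000 (Y ^ (32 / 100 : ℝ)) n : ℝ) : ℂ)) =
      ∫ y in Y⁻¹..Y ^ (32 / 100 : ℝ), ∑ n ∈ sball (Y ^ 2), FF l a Y n * Lam Y n *
        ((1000 / y * ((∑ p ∈ pfs n, (y / nm p) ^ 1000) * gy 1000 y n) : ℝ) : ℂ) := by
    rw [intervalIntegral.integral_finsetSum]
    · refine Finset.sum_congr rfl fun n _ => ?_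
      rw [intervalIntegral.integral_const_mul, intervalIntegral.integral_ofReal, ← gy_sub p1 p2, mul_assoc]
    · exact fun n _ => ContinuousOn.intervalIntegrable
        (continuousOn_const.mul (Complex.continuous_ofReal.comp_continuousOn (bua_cont _ _ p1 p2 n)))
  have hi : IntervalIntegrable (fun y : ℝ => 1000 * (C * Y ^ (5 / 6 : ℝ) / Real.log Y ^ (4 : ℝ)) * y⁻¹)
      volume Y⁻¹ (Y ^ (32 / 100 : ℝ)) := by
    refine ContinuousOn.intervalIntegrable (continuousOn_const.mul (continuousOn_inv₀.mono fun y hy => ?_))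
    rw [Set.uIcc_of_le p2] at hy
    exact (p1.trans_le hy.1).ne'
  rw [e1]
  refine (intervalIntegral.norm_integral_le_of_norm_le p2 (ae_of_all _ fun y hy => ?_) hi).trans
    (le_of_eq ?_)
  · have hy0 : 0 < y := p1.trans hy.1
    have e2 : ∑ n ∈ sball (Y ^ 2), FF l a Y n * Lam Y n *
        ((1000 / y * ((∑ p ∈ pfs n, (y / nm p) ^ 1000) * gy 1000 y n) : ℝ) : ℂ) =
        ((1000 / y : ℝ) : ℂ) * ∑ n ∈ sball (Y ^ 2), FF l a Y n * cv (bet Y y 0 (Y ^ 2)) (gam y) n := by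
      rw [Finset.mul_sum]
      refine Finset.sum_congr rfl fun n hn => ?_
      rw [cv_bet (mem_sball.1 hn).2 (mem_sball.1 hn).1, Complex.ofReal_mul (1000 / y)]
      generalize (((∑ p ∈ pfs n, (y / nm p) ^ 1000) * gy 1000 y n : ℝ) : ℂ) = u
      ring
    rw [e2, norm_mul, Complex.norm_real, Real.norm_of_nonneg (by positivity)]
    refine (mul_le_mul_of_nonneg_left (h Y a y hY ha ha1 hy.1.le hy.2) (by positivity)).trans (le_of_eq ?_)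
    ring
  · rw [intervalIntegral.integral_const_mul, integral_inv_of_pos p1 (by positivity),
      Real.log_div (by positivity) p1.ne', Real.log_inv, Real.log_rpow hY0,
      show (4 : ℝ) = 3 + 1 by norm_num, Real.rpow_add hL, Real.rpow_one]
    field_simp
    ring

theorem bu_c_small {m : O} (hm : Prim m) (h1 : m ≠ 1) (hp : ¬ Prime m) {T : ℝ} (hT : 0 ≤ T)
    (h : nm m ≤ T * T) : ∃ p ∈ pfs m, nm p ≤ T := by
  obtain ⟨p, a1, a2, a3⟩ := hm.exists_prime_dvd h1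
  by_cases hpT : nm p ≤ T
  · exact ⟨p, (mem_pfs hm.ne_zero).2 ⟨a1, a2, a3⟩, hpT⟩
  obtain ⟨m', b1, rfl⟩ := a2.exists_mul hm a3
  have b2 : m' ≠ 1 := fun h0 => hp (by rw [h0, mul_one]; exact a1)
  obtain ⟨q, c1, c2, c3⟩ := b1.exists_prime_dvd b2
  refine ⟨q, (mem_pfs hm.ne_zero).2 ⟨c1, c2, c3.mul_left _⟩, (nm_le_of_dvd c3 b1.ne_zero).trans ?_⟩
  rw [nm_mul] at h
  by_contra h'
  nlinarith [not_le.1 hpT, not_le.1 h']

theorem bu_c_gx {Y x : ℝ} (hY : 2 ≤ Y) (hx : 0 < x) (h : x ≤ Y ^ (3 / 10 : ℝ)) :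
    gx 1000 (Y ^ (32 / 100 : ℝ)) x ≤ Y ^ (-(2 : ℝ)) := by
  have hY1 : 1 ≤ Y := by linarith
  have hY0 : 0 < Y := by linarith
  have h1 : Y ^ (2 / 100 : ℝ) ≤ Y ^ (32 / 100 : ℝ) / x := by
    rw [le_div_iff₀ hx]
    calc Y ^ (2 / 100 : ℝ) * x ≤ Y ^ (2 / 100 : ℝ) * Y ^ (3 / 10 : ℝ) := by gcongr
      _ = _ := by rw [← Real.rpow_add hY0]; norm_num
  have h2 : Y ^ (2 : ℝ) ≤ (Y ^ (32 / 100 : ℝ) / x) ^ 1000 :=
    calc Y ^ (2 : ℝ) ≤ Y ^ (2 / 100 * (1000 : ℕ) : ℝ) :=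
          Real.rpow_le_rpow_of_exponent_le hY1 (by norm_num)
      _ = (Y ^ (2 / 100 : ℝ)) ^ 1000 := Real.rpow_mul_natCast hY0.le _ _
      _ ≤ _ := pow_le_pow_left₀ (by positivity) h1 _
  rw [gx, Real.rpow_neg hY0.le, Real.exp_neg]
  refine inv_anti₀ (by positivity) (h2.trans ?_)
  linarith [Real.add_one_le_exp ((Y ^ (32 / 100 : ℝ) / x) ^ 1000)]

theorem bu_c_prw {Y P₁ P₂ : ℝ} {q : O} (h : prw Y P₁ P₂ q ≠ 0) : PSq q ∧ P₁ < nm q ∧ nm q ≤ P₂ := by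
  unfold prw at h
  split_ifs at h with h1
  · exact ⟨psq_prime h1.1 h1.2.1, h1.2.2⟩
  · exact absurd rfl h

/-- `conv_Bil'`, `typeII` with `y = Y^0.32`: a composite `m ≤ Y^0.6` has a prime factor `≤ Y^0.3`, so
`gy m ≤ exp (-Y^20) ≤ Y^(-2)` -/
theorem sum_R2 (h1 : StBil) (h2 : StHi) (h3 : StBar) (h4 : StRam) (l : ℤ) : ∃ C : ℝ, 0 < C ∧
    ∀ Y a : ℝ, 2 ≤ Y → Y ^ (-(17 / 100) : ℝ) ≤ a → a ≤ 1 →
    ‖∑ n ∈ sball (Y ^ 2), FF l a Y n * R2 Y n‖ ≤ C * Y ^ (5 / 6 : ℝ) / Real.log Y ^ (3 : ℝ) := by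
  obtain ⟨C₂, hC₂, k₂⟩ := conv_Bil' l 1
  obtain ⟨C₃, hC₃, k₃⟩ := typeII h1 h2 h3 h4 l
  refine ⟨600 * C₂ + C₃, by positivity, fun Y a hY ha ha1 => ?_⟩
  have hY1 : 1 ≤ Y := by linarith
  have hY0 : 0 < Y := by linarith
  have ha0 : 0 < a := lt_of_lt_of_le (by positivity) ha
  have hle : ∀ {s t : ℝ}, s ≤ t → Y ^ s ≤ Y ^ t := fun h => Real.rpow_le_rpow_of_exponent_le hY1 h
  have hle1 : ∀ {s : ℝ}, s ≤ 1 → Y ^ s ≤ Y := fun h => (hle h).trans_eq (Real.rpow_one _)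
  set β := prw Y (Y ^ (34 / 100 : ℝ)) (Y ^ (662 / 1000 : ℝ)) with hβ
  set γ := prw Y (Y ^ (34 / 100 : ℝ)) Y with hγ
  have t2 := k₂ Y a Y Y β γ hY ha0 ha1 (dv_prw hY0.le _ _) (dv_prw hY0.le _ _)
    (fun x hx => ⟨(bu_c_prw hx).1.1, (bu_c_prw hx).2.2.trans (hle1 (by norm_num))⟩)
    fun b hb => (bu_c_prw hb).2.2
  have t3 := k₃ Y a (Y ^ (32 / 100 : ℝ)) β γ hY ha ha1 (fun b hb => bu_c_prw hb) (dv_prw hY0.le _ _)
    (bvs_prw hY0.le _ _) (fun m hm => (bu_c_prw hm).1) (dv_prw hY0.le _ _) (bvs_prw hY0.le _ _)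
    fun _ => ⟨hle (by norm_num), hle1 (by norm_num), fun m hm m1 m2 => by
      by_cases hp : Prime m
      · have a1 : Y ^ (34 / 100 : ℝ) < nm m :=
          (Real.rpow_lt_rpow_of_exponent_lt (by linarith) (by norm_num)).trans_le m1
        rw [hγ, prw, if_pos ⟨hp, hm.1, a1, m2.trans (hle1 (by norm_num))⟩, gy_prime _ _ hp hm.1,
          sub_self, norm_zero]
        positivity
      · have a1 : m ≠ 1 := by
          rintro rfl
          rw [nm_one] at m1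
          exact absurd m1 (not_le.2 (Real.one_lt_rpow (by linarith) (by norm_num)))
        obtain ⟨p, a2, a3⟩ := bu_c_small hm.1 a1 hp (T := Y ^ (3 / 10 : ℝ)) (by positivity)
          (m2.trans_eq (by rw [← Real.rpow_add hY0]; norm_num))
        rw [hγ, prw, if_neg fun h => hp h.1, zero_sub, norm_neg, Complex.norm_real,
          Real.norm_of_nonneg (gy_pos _ _ _).le]
        exact (gy_le_gx _ (by positivity) a2).trans
          (bu_c_gx hY (nm_pos (pra_of_mem_pfs a2).1.ne_zero) a3)⟩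
  have t2' : C₂ / Y ≤ C₂ := div_le_self hC₂.le hY1
  have h600 := bu_c_one hY
  have e : ∑ n ∈ sball (Y ^ 2), FF l a Y n * R2 Y n =
      (1 / 2) * ∑ n ∈ sball (Y ^ 2), FF l a Y n * cv β γ n := by
    rw [Finset.mul_sum]
    exact Finset.sum_congr rfl fun n _ => by rw [R2]; ring
  have t4 := norm_add_le (∑ n ∈ sball (Y ^ 2), FF l a Y n * cv β γ n - Bil a Y (tw l β) (tw l γ) Y Y)
    (Bil a Y (tw l β) (tw l γ) Y Y)
  rw [sub_add_cancel] at t4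
  have hl : 1 / 2 ≤ Real.log Y :=
    le_trans (by linarith [Real.log_two_gt_d9]) (Real.log_le_log two_pos hY)
  have hl0 : 0 < Real.log Y := by linarith
  have h43 : Y ^ (5 / 6 : ℝ) / Real.log Y ^ (4 : ℝ) ≤ 2 * (Y ^ (5 / 6 : ℝ) / Real.log Y ^ (3 : ℝ)) := by
    have : Real.log Y ^ (4 : ℝ) = Real.log Y ^ (3 : ℝ) * Real.log Y := by
      rw [← Real.rpow_add_one hl0.ne']; norm_num
    rw [this, ← div_div, div_le_iff₀ hl0]
    have : 0 ≤ Y ^ (5 / 6 : ℝ) / Real.log Y ^ (3 : ℝ) := by positivity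
    nlinarith
  rw [e, norm_mul, mul_div_assoc]
  rw [mul_div_assoc] at t3
  have n2 : ‖(1 / 2 : ℂ)‖ = 1 / 2 := by simp
  rw [n2]
  nlinarith [mul_le_mul_of_nonneg_left h600 hC₂.le, mul_le_mul_of_nonneg_left h43 hC₂.le,
    mul_le_mul_of_nonneg_left h43 hC₃.le]

end Crest.Agent.R12.SI
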