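import Crest.Agent.R12.SI.Point

/-! Row 12, block SI: from sums over `n` to bilinear forms; type I; the error term.
Prefix for helper lemmas: `cv_`. -/

set_option autoImplicit false

namespace Crest.Agent.R12.SI

open Crest.Agent.R17
open scoped ComplexConjugate

theorem cva_FF (l : ℤ) (a Y : ℝ) {n : O} (hn : n ≠ 0) : ‖FF l a Y n‖ ≤ 3 * LW a Y (nm n) := by
  rw [FF, norm_mul, norm_mul, norm_zpow, norm_al hn, one_zpow, one_mul, Complex.norm_real,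
    Real.norm_of_nonneg (LW_pos _ _ _).le]
  exact mul_le_mul_of_nonneg_right (norm_f0_le n) (LW_pos _ _ _).le

theorem cva_anti {k : ℕ} {M : ℝ} {α γ : O → ℂ} (hM : 0 ≤ M) (hα : ∀ x, ‖α x‖ ≤ M * dn x ^ k)
    (hγ : Dv k γ) {n : O} (hn : Prim n) :
    ∑ p ∈ anti n, ‖α p.1 * γ p.2‖ ≤ M * dn n ^ (2 * k + 1) := by
  refine (Finset.sum_le_card_nsmul _ _ (M * dn n ^ k * dn n ^ k) fun p hp => ?_).trans (le_of_eq ?_)
  · obtain ⟨-, -, e⟩ := mem_anti.1 hp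
    have h1 := dn_le_of_dvd hn.ne_zero (e ▸ dvd_mul_right p.1 p.2)
    have h2 := dn_le_of_dvd hn.ne_zero (e ▸ dvd_mul_left p.2 p.1)
    have h3 := dn_nonneg p.1
    have h4 := dn_nonneg p.2
    have h5 := dn_nonneg n
    rw [norm_mul]
    calc _ ≤ M * dn p.1 ^ k * dn p.2 ^ k :=
          mul_le_mul (hα _) (hγ _) (norm_nonneg _) (by positivity)
      _ ≤ _ := by gcongr
  · rw [nsmul_eq_mul, card_anti hn]
    ring

open Classical in
theorem cva_bi {M : Type*} [AddCommMonoid M] (S : Finset O) (f : O × O → M) :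
    ∑ p ∈ S.biUnion anti, f p = ∑ n ∈ S, ∑ p ∈ anti n, f p :=
  Finset.sum_biUnion fun _ _ _ _ hne => Finset.disjoint_left.2 fun _ h₁ h₂ =>
    hne ((mem_anti.1 h₁).2.2.symm.trans (mem_anti.1 h₂).2.2)

theorem cva_tail (l : ℤ) (k : ℕ) : ∃ C : ℝ, 0 < C ∧ ∀ (Y a : ℝ) (α γ : O → ℂ) (S : Finset (O × O)), 2 ≤ Y →
    0 < a → a ≤ 1 → Dv k α → Dv k γ → (∀ p ∈ S, FF l a Y (p.1 * p.2) * (α p.1 * γ p.2) ≠ 0 →
      Prim p.1 ∧ Prim p.2 ∧ Y ^ (101 / 100 : ℝ) ≤ nm (p.1 * p.2)) →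
    ‖∑ p ∈ S, FF l a Y (p.1 * p.2) * (α p.1 * γ p.2)‖ ≤ C / Y := by
  classical
  obtain ⟨C₁, hC₁, H₁⟩ := dn_pow_le (2 * k + 1) one_pos
  obtain ⟨C₂, hC₂, H₂⟩ := LW_tail 1 1 (1 / 100) (by norm_num)
  refine ⟨3 * C₁ * C₂, by positivity, fun Y a α γ S hY ha ha1 hα hγ hS => ?_⟩
  have h0 : 0 < Y := by linarith
  set S' := S.filter fun p => FF l a Y (p.1 * p.2) * (α p.1 * γ p.2) ≠ 0 with hS'
  set T := S'.image fun p => p.1 * p.2 with hT
  have hT' : ∀ n ∈ T, Prim n ∧ Y * Y ^ (1 / 100 : ℝ) ≤ nm n := by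
    intro n hn
    obtain ⟨p, hp, rfl⟩ := Finset.mem_image.1 hn
    obtain ⟨h1, h2, h3⟩ := hS p (Finset.mem_filter.1 hp).1 (Finset.mem_filter.1 hp).2
    refine ⟨h1.mul h2, le_trans (le_of_eq ?_) h3⟩
    rw [show (101 / 100 : ℝ) = 1 + 1 / 100 by norm_num, Real.rpow_add h0, Real.rpow_one]
  have e1 := H₂ a Y Y T ha (by linarith) (by linarith) h0 le_rfl
    fun n hn => ⟨(hT' n hn).1.ne_zero, Or.inr (hT' n hn).2⟩
  rw [abs_one, Real.rpow_neg_one] at e1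
  rw [← Finset.sum_filter_ne_zero, ← hS']
  calc _ ≤ ∑ p ∈ S', ‖FF l a Y (p.1 * p.2) * (α p.1 * γ p.2)‖ := norm_sum_le _ _
    _ ≤ ∑ p ∈ T.biUnion anti, ‖FF l a Y (p.1 * p.2) * (α p.1 * γ p.2)‖ := by
      refine Finset.sum_le_sum_of_subset_of_nonneg (fun p hp => ?_) fun _ _ _ => norm_nonneg _
      obtain ⟨h1, h2, -⟩ := hS p (Finset.mem_filter.1 hp).1 (Finset.mem_filter.1 hp).2
      exact Finset.mem_biUnion.2 ⟨_, Finset.mem_image_of_mem _ hp, mem_anti.2 ⟨h1, h2, rfl⟩⟩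
    _ ≤ ∑ n ∈ T, 3 * C₁ * (nm n ^ (1 : ℝ) * LW a Y (nm n)) := by
      rw [cva_bi]
      refine Finset.sum_le_sum fun n hn => ?_
      have hn' := (hT' n hn).1
      have e2 := cva_anti zero_le_one (fun x => by rw [one_mul]; exact hα x) hγ hn'
      rw [one_mul] at e2
      have := LW_pos a Y (nm n)
      calc _ = ‖FF l a Y n‖ * ∑ p ∈ anti n, ‖α p.1 * γ p.2‖ := by
            rw [Finset.mul_sum]
            exact Finset.sum_congr rfl fun p hp => by rw [norm_mul, (mem_anti.1 hp).2.2]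
        _ ≤ 3 * LW a Y (nm n) * (C₁ * nm n ^ (1 : ℝ)) :=
            mul_le_mul (cva_FF l a Y hn'.ne_zero) (e2.trans (H₁ n hn'.ne_zero))
              (Finset.sum_nonneg fun _ _ => norm_nonneg _) (by positivity)
        _ = _ := by ring
    _ ≤ 3 * C₁ * (C₂ * Y⁻¹) := by
      rw [← Finset.mul_sum]
      gcongr
    _ = _ := by ring

theorem cva_gen (l : ℤ) (k : ℕ) : ∃ C : ℝ, 0 < C ∧ ∀ (Y a XA XB : ℝ) (α γ : O → ℂ), 2 ≤ Y → 0 < a → a ≤ 1 →
    Dv k α → Dv k γ → (∀ x b, α x ≠ 0 → γ b ≠ 0 → Prim x ∧ nm x ≤ XA ∧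
      (XB < nm b → Y ^ (101 / 100 : ℝ) ≤ nm (x * b))) →
    ‖∑ n ∈ sball (Y ^ 2), FF l a Y n * cv α γ n - Bil a Y (tw l α) (tw l γ) XA XB‖ ≤ C / Y := by
  classical
  obtain ⟨C, hC, H⟩ := cva_tail l k
  refine ⟨2 * C, by positivity, fun Y a XA XB α γ hY ha ha1 hα hγ h => ?_⟩
  have e1 : ∑ n ∈ sball (Y ^ 2), FF l a Y n * cv α γ n =
      ∑ p ∈ (sball (Y ^ 2)).biUnion anti, FF l a Y (p.1 * p.2) * (α p.1 * γ p.2) := by
    rw [cva_bi]
    refine Finset.sum_congr rfl fun n _ => ?_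
    rw [cv, Finset.mul_sum]
    exact Finset.sum_congr rfl fun p hp => by rw [(mem_anti.1 hp).2.2]
  have e2 : Bil a Y (tw l α) (tw l γ) XA XB =
      ∑ p ∈ ball XA ×ˢ ball XB, FF l a Y (p.1 * p.2) * (α p.1 * γ p.2) := by
    rw [Bil, Finset.sum_product]
    refine Finset.sum_congr rfl fun x _ => Finset.sum_congr rfl fun b _ => ?_
    rw [FF, tw, tw, al_mul, mul_zpow]
    ring
  rw [e1, e2, ← Finset.sum_sdiff_sub_sum_sdiff, mul_div_assoc, two_mul]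
  refine (norm_sub_le _ _).trans (add_le_add (H Y a α γ _ hY ha ha1 hα hγ fun p hp h0 => ?_)
    (H Y a α γ _ hY ha ha1 hα hγ fun p hp h0 => ?_))
  · obtain ⟨h1, h2⟩ := Finset.mem_sdiff.1 hp
    obtain ⟨n, -, h3⟩ := Finset.mem_biUnion.1 h1
    obtain ⟨p1, p2, -⟩ := mem_anti.1 h3
    have h4 := right_ne_zero_of_mul h0
    obtain ⟨-, h5, h6⟩ := h _ _ (left_ne_zero_of_mul h4) (right_ne_zero_of_mul h4)
    refine ⟨p1, p2, h6 (not_le.1 fun h7 => h2 ?_)⟩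
    exact Finset.mem_product.2 ⟨mem_ball.2 h5, mem_ball.2 h7⟩
  · obtain ⟨-, h2⟩ := Finset.mem_sdiff.1 hp
    have h4 := right_ne_zero_of_mul h0
    obtain ⟨p1, -, -⟩ := h _ _ (left_ne_zero_of_mul h4) (right_ne_zero_of_mul h4)
    have h5 : PSq (p.1 * p.2) := by
      by_contra h5
      exact left_ne_zero_of_mul h0 (by rw [FF, f0_eq_zero h5, mul_zero, zero_mul])
    have p2 := p1.of_mul h5.1
    refine ⟨p1, p2, ?_⟩
    have h6 : Y ^ 2 < nm (p.1 * p.2) := not_le.1 fun h7 => h2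
      (Finset.mem_biUnion.2 ⟨_, mem_sball.2 ⟨h7, h5⟩, mem_anti.2 ⟨p1, p2, rfl⟩⟩)
    refine le_trans ?_ h6.le
    rw [← Real.rpow_natCast]
    exact Real.rpow_le_rpow_of_exponent_le (by linarith) (by norm_num)

/-- the left sum is the sum over pairs `(x, b)` of primary elements with `N (x b) ≤ Y²` (and `x b`
squarefree; the other terms vanish); both sides contain all pairs with `x, b ≤ Y`-range that matter:
the pairs present on one side only have `N (x b) > Y^1.01` (`LW_tail`, `dn_pow_le`) -/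
theorem conv_Bil (l : ℤ) (k : ℕ) : ∃ C : ℝ, 0 < C ∧ ∀ (Y a XA XB : ℝ) (α γ : O → ℂ), 2 ≤ Y → 0 < a → a ≤ 1 →
    Dv k α → Dv k γ → (∀ x, α x ≠ 0 → Prim x ∧ nm x ≤ XA ∧ Y ^ (101 / 100 : ℝ) ≤ nm x * XB) →
    ‖∑ n ∈ sball (Y ^ 2), FF l a Y n * cv α γ n - Bil a Y (tw l α) (tw l γ) XA XB‖ ≤ C / Y := by
  obtain ⟨C, hC, H⟩ := cva_gen l k
  refine ⟨C, hC, fun Y a XA XB α γ hY ha ha1 hα hγ h => H Y a XA XB α γ hY ha ha1 hα hγ
    fun x b hx _ => ⟨(h x hx).1, (h x hx).2.1, fun hb => (h x hx).2.2.trans ?_⟩⟩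
  rw [nm_mul]
  exact mul_le_mul_of_nonneg_left hb.le (nm_nonneg x)

/-- if the columns are supported in `N ≤ XB` and the rows in `N ≤ XA` -/
theorem conv_Bil' (l : ℤ) (k : ℕ) : ∃ C : ℝ, 0 < C ∧ ∀ (Y a XA XB : ℝ) (α γ : O → ℂ), 2 ≤ Y → 0 < a → a ≤ 1 →
    Dv k α → Dv k γ → (∀ x, α x ≠ 0 → Prim x ∧ nm x ≤ XA) → (∀ b, γ b ≠ 0 → nm b ≤ XB) →
    ‖∑ n ∈ sball (Y ^ 2), FF l a Y n * cv α γ n - Bil a Y (tw l α) (tw l γ) XA XB‖ ≤ C / Y := by
  obtain ⟨C, hC, H⟩ := cva_gen l k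
  exact ⟨C, hC, fun Y a XA XB α γ hY ha ha1 hα hγ h h' => H Y a XA XB α γ hY ha ha1 hα hγ
    fun x b hx hb => ⟨(h x hx).1, (h x hx).2, fun h1 => absurd (h' b hb) (not_le.2 h1)⟩⟩

theorem cv_b_FF (l : ℤ) (a Y : ℝ) (n : O) : ‖FF l a Y n‖ ≤ 3 * LW a Y (nm n) := by
  rw [FF, norm_mul, norm_mul, Complex.norm_real, Real.norm_of_nonneg (LW_pos _ _ _).le]
  refine mul_le_mul_of_nonneg_right ?_ (LW_pos _ _ _).le
  calc _ ≤ 1 * 3 := mul_le_mul (bla_norm_le n l) (norm_f0_le n) (norm_nonneg _) zero_le_one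
    _ = 3 := one_mul _

theorem cv_b_cut (l : ℤ) : ∃ C : ℝ, 0 < C ∧ ∀ (Y a : ℝ) (P : O → Prop) [DecidablePred P], 2 ≤ Y →
    0 < a → a ≤ 1 → ‖(∑' n : Pr, if P n then FF l a Y n else 0) -
      ∑ n ∈ sball (Y ^ 2), if P n then FF l a Y n else 0‖ ≤ C / Y := by
  obtain ⟨C, hC, H⟩ := tsum_cut 0 1 1 one_pos
  refine ⟨C * 3, by positivity, fun Y a P _ hY ha ha1 => ?_⟩
  have hY0 : 0 < Y := by linarith
  have h := H a Y Y (Y ^ 2) 3 (fun n => if P n then FF l a Y n else 0) ha (by linarith)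
    (by linarith) hY0 le_rfl (by rw [Real.rpow_one, sq]) (by norm_num) fun n _ => by
      rw [abs_zero, Real.rpow_zero, mul_one]
      split_ifs
      · exact cv_b_FF l a Y n
      · rw [norm_zero]
        exact mul_nonneg (by norm_num) (LW_pos _ _ _).le
  rw [Real.rpow_neg_one, ← div_eq_mul_inv] at h
  refine le_trans (le_of_eq ?_) h
  congr 2
  refine Finset.sum_subset (fun n hn => mem_pball.2 ⟨(mem_sball.1 hn).1, (mem_sball.1 hn).2.1⟩)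
    fun n hn hn' => ?_
  have : f0 n = 0 := f0_eq_zero fun h => hn' (mem_sball.2 ⟨(mem_pball.1 hn).1, h⟩)
  simp [FF, this]

theorem cv_b_card {X : ℝ} (hX : 1 ≤ X) {S : Finset O} (h : S ⊆ sball X) : (S.card : ℝ) ≤ 11 * X :=
  card_le_of_nm_le (zero_le_one.trans hX) fun _ hn =>
    ⟨(mem_sball.1 (h hn)).2.ne_zero, (mem_sball.1 (h hn)).1⟩

open Classical in
/-- `tsum_cut` -/
theorem PW_cut (l : ℤ) : ∃ C : ℝ, 0 < C ∧ ∀ Y a : ℝ, 2 ≤ Y → 0 < a → a ≤ 1 →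
    ‖PW l a Y - ∑ n ∈ sball (Y ^ 2), FF l a Y n * (if Prime n then 1 else 0)‖ ≤ C / Y := by
  obtain ⟨C, hC, H⟩ := cv_b_cut l
  refine ⟨C, hC, fun Y a hY ha ha1 => le_trans (le_of_eq ?_) (H Y a Prime hY ha ha1)⟩
  simp only [PW, FF, mul_ite, mul_one, mul_zero]

/-- exchange the sums, `tsum_cut` for each `d` -/
theorem typeI (h : StT1) (l : ℤ) : ∃ δ C : ℝ, 0 < δ ∧ ∀ Y a : ℝ, 2 ≤ Y → Y ^ (-(17 / 100) : ℝ) ≤ a → a ≤ 1 →
    ‖∑ n ∈ sball (Y ^ 2), FF l a Y n * Lam Y n‖ ≤ C * Y ^ (5 / 6 - δ) := by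
  classical
  obtain ⟨δ, C₁, hδ, H₁⟩ := h l
  obtain ⟨C, hC, H⟩ := cv_b_cut l
  refine ⟨min δ (1 / 2), |C₁| + 11 * C, lt_min hδ (by norm_num), fun Y a hY ha ha1 => ?_⟩
  have hY0 : 0 < Y := by linarith
  have hY1 : 1 ≤ Y := by linarith
  have ha0 : 0 < a := lt_of_lt_of_le (Real.rpow_pos_of_pos hY0 _) ha
  have e : ∑ n ∈ sball (Y ^ 2), FF l a Y n * Lam Y n = ∑ d ∈ sball (Y ^ (34 / 100 : ℝ)),
      mu d * ∑ n ∈ sball (Y ^ 2), if d ∣ n then FF l a Y n else 0 := by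
    simp only [Finset.mul_sum]
    rw [Finset.sum_comm]
    refine Finset.sum_congr rfl fun n hn => ?_
    have hn' := (mem_sball.1 hn).2
    have e1 : (pdiv n).filter (fun d => nm d ≤ Y ^ (34 / 100 : ℝ)) =
        (sball (Y ^ (34 / 100 : ℝ))).filter (· ∣ n) := by
      ext d
      simp only [Finset.mem_filter, mem_pdiv hn'.ne_zero, mem_sball, PSq]
      exact ⟨fun h => ⟨⟨h.2, h.1.1, hn'.2.squarefree_of_dvd h.1.2⟩, h.1.2⟩,
        fun h => ⟨⟨h.1.2.1, h.2⟩, h.1.1⟩⟩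
    rw [Lam, ← Finset.sum_filter, e1, Finset.sum_filter, Finset.mul_sum]
    refine Finset.sum_congr rfl fun d _ => ?_
    split_ifs
    · ring
    · simp
  have hD1 : 1 ≤ Y ^ (34 / 100 : ℝ) := Real.one_le_rpow hY1 (by norm_num)
  have hDY : Y ^ (34 / 100 : ℝ) ≤ Y := by
    simpa using Real.rpow_le_rpow_of_exponent_le hY1 (by norm_num : (34 / 100 : ℝ) ≤ 1)
  have hE : 1 ≤ Y ^ (5 / 6 - min δ (1 / 2)) :=
    Real.one_le_rpow hY1 (by linarith [min_le_right δ (1 / 2)])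
  have hE' : Y ^ (5 / 6 - δ) ≤ Y ^ (5 / 6 - min δ (1 / 2)) :=
    Real.rpow_le_rpow_of_exponent_le hY1 (by linarith [min_le_left δ (1 / 2)])
  rw [e]
  calc _ ≤ ∑ d ∈ sball (Y ^ (34 / 100 : ℝ)),
        (‖∑' n : Pr, if d ∣ (n : O) then FF l a Y n else 0‖ + C / Y) := by
        refine norm_sum_le_of_le _ fun d _ => ?_
        rw [norm_mul]
        refine (mul_le_of_le_one_left (norm_nonneg _) (norm_mu_le d)).trans ?_
        have h1 := H Y a (d ∣ ·) hY ha0 ha1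
        have h2 := norm_sub_norm_le (∑ n ∈ sball (Y ^ 2), if d ∣ n then FF l a Y n else 0)
          (∑' n : Pr, if d ∣ (n : O) then FF l a Y n else 0)
        rw [norm_sub_rev] at h2
        linarith
    _ ≤ C₁ * Y ^ (5 / 6 - δ) + 11 * Y * (C / Y) := by
        rw [Finset.sum_add_distrib, Finset.sum_const, nsmul_eq_mul]
        refine add_le_add (le_trans (le_of_eq ?_) (H₁ Y a hY ha ha1)) ?_
        · simp only [FF]
        · exact mul_le_mul_of_nonneg_right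
            ((cv_b_card hD1 (Finset.Subset.refl _)).trans (by linarith)) (by positivity)
    _ = C₁ * Y ^ (5 / 6 - δ) + 11 * C * 1 := by field_simp
    _ ≤ |C₁| * Y ^ (5 / 6 - min δ (1 / 2)) + 11 * C * Y ^ (5 / 6 - min δ (1 / 2)) := by
        gcongr
        exact le_abs_self _
    _ = _ := by ring

/-- `norm_Er_window` in the window (`dn² ≤ C N^{1/2}`, at most `11 Y^1.001` terms), `norm_Er_le` and
`LW_tail` outside -/
theorem sum_Er (l : ℤ) : ∃ C : ℝ, 0 < C ∧ ∀ Y a : ℝ, 2 ≤ Y → 0 < a → a ≤ 1 →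
    ‖∑ n ∈ sball (Y ^ 2), FF l a Y n * Er Y n‖ ≤ C := by
  classical
  obtain ⟨C₁, hC₁, H₁⟩ := dn_pow_le 2 (ε := 1 / 2) (by norm_num)
  obtain ⟨C₂, hC₂, H₂⟩ := dn_pow_le 1 (ε := 1) one_pos
  obtain ⟨C₃, hC₃, H₃⟩ := LW_tail 1 1 (1 / 1000) (by norm_num)
  refine ⟨11 * (60 * C₁) + 30 * C₂ * C₃, by positivity, fun Y a hY ha ha1 => ?_⟩
  have hY0 : 0 < Y := by linarith
  have hY1 : 1 ≤ Y := by linarith
  rw [← Finset.sum_filter_add_sum_filter_not (sball (Y ^ 2))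
    fun n => Y ^ (999 / 1000 : ℝ) ≤ nm n ∧ nm n ≤ Y ^ (1001 / 1000 : ℝ)]
  refine (norm_add_le _ _).trans (add_le_add ?_ ?_)
  · have e3 : Y ^ (-(3 : ℝ)) = (Y ^ 3)⁻¹ := by
      rw [Real.rpow_neg hY0.le, ← Real.rpow_natCast]
      norm_num
    calc _ ≤ ∑ n ∈ (sball (Y ^ 2)).filter
          fun n => Y ^ (999 / 1000 : ℝ) ≤ nm n ∧ nm n ≤ Y ^ (1001 / 1000 : ℝ),
          60 * C₁ / Y ^ 2 := by
          refine norm_sum_le_of_le _ fun n hn => ?_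
          obtain ⟨h1, h2, h3⟩ := Finset.mem_filter.1 hn
          obtain ⟨h4, h5⟩ := mem_sball.1 h1
          have i1 : ‖FF l a Y n‖ ≤ 3 := (cv_b_FF l a Y n).trans (by linarith [LW_le_one a Y (nm n)])
          have i2 := norm_Er_window hY h5 h2 h3
          have i3 : nm n ^ (1 / 2 : ℝ) ≤ Y := by
            rw [← Real.sqrt_eq_rpow]
            exact Real.sqrt_le_iff.2 ⟨hY0.le, h4⟩
          have i4 : dn n ^ 2 ≤ C₁ * Y := (H₁ n h5.ne_zero).trans (by gcongr)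
          rw [norm_mul]
          rw [e3] at i2
          calc _ ≤ 3 * (20 * dn n ^ 2 * (Y ^ 3)⁻¹) := by gcongr
            _ ≤ 3 * (20 * (C₁ * Y) * (Y ^ 3)⁻¹) := by gcongr
            _ = _ := by field_simp; ring
      _ ≤ 11 * Y ^ 2 * (60 * C₁ / Y ^ 2) := by
          rw [Finset.sum_const, nsmul_eq_mul]
          exact mul_le_mul_of_nonneg_right
            (cv_b_card (one_le_pow₀ hY1) (Finset.filter_subset _ _)) (by positivity)
      _ = _ := by field_simp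
  · have e1 : Y * Y ^ (-(1 / 1000 : ℝ)) = Y ^ (999 / 1000 : ℝ) := by
      rw [← Real.rpow_one_add' hY0.le (by norm_num)]
      norm_num
    have e2 : Y * Y ^ (1 / 1000 : ℝ) = Y ^ (1001 / 1000 : ℝ) := by
      rw [← Real.rpow_one_add' hY0.le (by norm_num)]
      norm_num
    have h := H₃ a Y Y ((sball (Y ^ 2)).filter
      fun n => ¬ (Y ^ (999 / 1000 : ℝ) ≤ nm n ∧ nm n ≤ Y ^ (1001 / 1000 : ℝ))) ha (by linarith) hY1
      hY0 le_rfl fun n hn => by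
        obtain ⟨h1, h2⟩ := Finset.mem_filter.1 hn
        refine ⟨(mem_sball.1 h1).2.ne_zero, ?_⟩
        rw [e1, e2]
        rcases not_and_or.1 h2 with h | h
        · exact Or.inl (not_le.1 h).le
        · exact Or.inr (not_le.1 h).le
    rw [abs_one, Real.rpow_neg_one] at h
    calc _ ≤ ∑ n ∈ (sball (Y ^ 2)).filter
          fun n => ¬ (Y ^ (999 / 1000 : ℝ) ≤ nm n ∧ nm n ≤ Y ^ (1001 / 1000 : ℝ)),
          30 * C₂ * Y * (nm n ^ (1 : ℝ) * LW a Y (nm n)) := by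
          refine norm_sum_le_of_le _ fun n hn => ?_
          have h5 := (mem_sball.1 (Finset.mem_filter.1 hn).1).2
          have i1 := cv_b_FF l a Y n
          have i2 := norm_Er_le hY h5
          have i3 := H₂ n h5.ne_zero
          rw [pow_one] at i3
          have i4 := (LW_pos a Y (nm n)).le
          rw [norm_mul]
          calc _ ≤ 3 * LW a Y (nm n) * (10 * Y * dn n) := by gcongr
            _ ≤ 3 * LW a Y (nm n) * (10 * Y * (C₂ * nm n ^ (1 : ℝ))) := by gcongr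
            _ = _ := by ring
      _ ≤ 30 * C₂ * Y * (C₃ * Y⁻¹) := by
          rw [← Finset.mul_sum]
          gcongr
      _ = _ := by field_simp

/-- trivial bound -/
theorem conv_triv (l : ℤ) (k : ℕ) : ∃ C : ℝ, 0 < C ∧ ∀ (Y a M : ℝ) (α γ : O → ℂ), 2 ≤ Y → 0 < a → a ≤ 1 →
    0 ≤ M → (∀ x, ‖α x‖ ≤ M * dn x ^ k) → Dv k γ →
    ‖∑ n ∈ sball (Y ^ 2), FF l a Y n * cv α γ n‖ ≤ C * M * Y ^ (3 / 2 : ℝ) := by
  obtain ⟨C₁, hC₁, H₁⟩ := dn_pow_le (2 * k + 1) (ε := 1 / 4) (by norm_num)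
  obtain ⟨C₂, hC₂, H₂⟩ := sum_LW_le
  refine ⟨6 * C₁ * C₂, by positivity, fun Y a M α γ hY ha ha1 hM hα hγ => ?_⟩
  have h0 : 0 < Y := by linarith
  have e1 := H₂ a Y (sball (Y ^ 2)) ha (by linarith) h0 fun n hn => (mem_sball.1 hn).2.ne_zero
  have e2 : a * Y + √Y ≤ 2 * Y := by
    have : √Y ≤ Y := Real.sqrt_le_iff.2 ⟨h0.le, by nlinarith⟩
    nlinarith
  calc _ ≤ ∑ n ∈ sball (Y ^ 2), 3 * C₁ * M * Y ^ (1 / 2 : ℝ) * LW a Y (nm n) := by
        refine (norm_sum_le _ _).trans (Finset.sum_le_sum fun n hn => ?_)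
        obtain ⟨h1, h2⟩ := mem_sball.1 hn
        have e3 : nm n ^ (1 / 4 : ℝ) ≤ Y ^ (1 / 2 : ℝ) := by
          refine (Real.rpow_le_rpow (nm_nonneg n) h1 (by norm_num)).trans (le_of_eq ?_)
          rw [← Real.rpow_natCast, ← Real.rpow_mul h0.le]
          norm_num
        have e4 : ‖cv α γ n‖ ≤ M * (C₁ * Y ^ (1 / 2 : ℝ)) :=
          (norm_sum_le _ _).trans ((cva_anti hM hα hγ h2.1).trans
            (mul_le_mul_of_nonneg_left ((H₁ n h2.ne_zero).trans (by gcongr)) hM))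
        have := LW_pos a Y (nm n)
        rw [norm_mul]
        exact (mul_le_mul (cva_FF l a Y h2.ne_zero) e4 (norm_nonneg _) (by positivity)).trans
          (le_of_eq (by ring))
    _ ≤ 3 * C₁ * M * Y ^ (1 / 2 : ℝ) * (C₂ * (2 * Y)) := by
        rw [← Finset.mul_sum]
        exact mul_le_mul_of_nonneg_left (e1.trans (by gcongr)) (by positivity)
    _ = _ := by
        rw [show (3 / 2 : ℝ) = 1 / 2 + 1 by norm_num, Real.rpow_add h0, Real.rpow_one]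
        ring

end Crest.Agent.R12.SI
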