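import Crest.Agent.R12.Base.All

/-!
Row 12, block SI (owner helper4): definitions.  `D = Y^0.34`, `y₀ = Y^0.32`, `y₁ = 1/Y`, `κ = 1000`.
For primary squarefree `n` near `Y`:
`1[n prime] = Lam n - Lam n (gy y₁ n - gy y₀ n) - R2 n - R3 n + Er n` with `Er` tiny.
-/

set_option autoImplicit false

namespace Crest.Agent.R12.SI

open Crest.Agent.R17
open scoped ComplexConjugate

/-- the summand -/
noncomputable def FF (l : ℤ) (a Y : ℝ) (n : O) : ℂ := al n ^ l * f0 n * (LW a Y (nm n) : ℂ)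

/-- Dirichlet convolution over primary factorisations -/
noncomputable def cv (α γ : O → ℂ) (n : O) : ℂ := ∑ p ∈ anti n, α p.1 * γ p.2

/-- angular twist -/
noncomputable def tw (l : ℤ) (α : O → ℂ) (n : O) : ℂ := α n * al n ^ l

open Classical in
/-- the truncated Möbius sum -/
noncomputable def Lam (Y : ℝ) (n : O) : ℂ := ∑ d ∈ pdiv n, if nm d ≤ Y ^ (34 / 100 : ℝ) then mu d else 0

open Classical in
/-- the rows of the Buchstab integral, primes of norm in `(P₁, P₂]` -/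
noncomputable def bet (Y y P₁ P₂ : ℝ) (b : O) : ℂ :=
  if PSq b then ∑ p ∈ anti b,
    if Prime p.1 ∧ P₁ < nm p.1 ∧ nm p.1 ≤ P₂ ∧ Y ^ (34 / 100 : ℝ) < nm b ∧ nm p.2 ≤ Y ^ (34 / 100 : ℝ) then
      (((y / nm p.1) ^ 1000 * gx 1000 y (nm p.1) * gy 1000 y p.2 : ℝ) : ℂ) * mu p.2 else 0
  else 0

open Classical in
/-- the columns of the Buchstab integral -/
noncomputable def gam (y : ℝ) (m : O) : ℂ := if PSq m then (gy 1000 y m : ℂ) else 0

open Classical in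
/-- primes of norm in `(P₁, P₂]` with the weight at `y₀` -/
noncomputable def prw (Y P₁ P₂ : ℝ) (q : O) : ℂ :=
  if Prime q ∧ Prim q ∧ P₁ < nm q ∧ nm q ≤ P₂ then (gx 1000 (Y ^ (32 / 100 : ℝ)) (nm q) : ℂ) else 0

/-- two large primes -/
noncomputable def R2 (Y : ℝ) (n : O) : ℂ :=
  (1 / 2) * cv (prw Y (Y ^ (34 / 100 : ℝ)) (Y ^ (662 / 1000 : ℝ))) (prw Y (Y ^ (34 / 100 : ℝ)) Y) n

/-- products of two primes of norm in `[Y^0.31, 2 · 2^i]` -/
def E2 (Y : ℝ) (i : ℕ) (x : O) : Prop :=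
  PSq x ∧ (pfs x).card = 2 ∧ ∀ p ∈ pfs x, Y ^ (31 / 100 : ℝ) ≤ nm p ∧ nm p ≤ 2 * 2 ^ i

open Classical in
/-- the rows for three primes, the column being a prime of the largest dyadic class `i` -/
noncomputable def w3 (Y : ℝ) (i : ℕ) (x : O) : ℂ :=
  if E2 Y i x then ((gy 1000 (Y ^ (32 / 100 : ℝ)) x /
    (1 + (((pfs x).filter fun p => (2 : ℝ) ^ i < nm p).card : ℝ)) : ℝ) : ℂ) else 0

open Classical in
/-- the same times `1 - ω_{≤ D}(x)` -/
noncomputable def w3' (Y : ℝ) (i : ℕ) (x : O) : ℂ :=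
  w3 Y i x * (1 - (((pfs x).filter fun p => nm p ≤ Y ^ (34 / 100 : ℝ)).card : ℂ))

/-- the number of dyadic classes -/
noncomputable def NY (Y : ℝ) : ℕ := ⌈Real.logb 2 Y⌉₊

/-- three primes -/
noncomputable def R3 (Y : ℝ) (n : O) : ℂ :=
  ∑ i ∈ Finset.range (NY Y), (cv (w3' Y i) (prw Y (2 ^ i) (2 * 2 ^ i)) n -
    cv (w3 Y i) (prw Y (2 ^ i) (min (2 * 2 ^ i) (Y ^ (34 / 100 : ℝ)))) n)

open Classical in
/-- the error of the sieve identity -/
noncomputable def Er (Y : ℝ) (n : O) : ℂ :=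
  (if Prime n then 1 else 0) - Lam Y n +
    Lam Y n * ((gy 1000 Y⁻¹ n - gy 1000 (Y ^ (32 / 100 : ℝ)) n : ℝ) : ℂ) + R2 Y n + R3 Y n

theorem le_NY {Y : ℝ} (hY : 1 ≤ Y) : Y ≤ 2 ^ NY Y := by
  have h := Nat.le_ceil (Real.logb 2 Y)
  calc Y = 2 ^ Real.logb 2 Y := (Real.rpow_logb (by norm_num) (by norm_num) (by linarith)).symm
    _ ≤ 2 ^ ((NY Y : ℕ) : ℝ) := Real.rpow_le_rpow_of_exponent_le (by norm_num) h
    _ = 2 ^ NY Y := Real.rpow_natCast _ _

theorem NY_le {Y : ℝ} (hY : 2 ≤ Y) : (NY Y : ℝ) ≤ 3 * Real.log Y := by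
  have h0 : 0 ≤ Real.logb 2 Y := Real.logb_nonneg (by norm_num) (by linarith)
  have h := (Nat.ceil_lt_add_one h0).le
  have h2 := Real.log_two_gt_d9
  have h3 : Real.log 2 ≤ Real.log Y := Real.log_le_log (by norm_num) hY
  have h4 : Real.logb 2 Y ≤ 3 / 2 * Real.log Y := by
    rw [Real.logb, div_le_iff₀ (by linarith)]; nlinarith
  unfold NY; linarith

end Crest.Agent.R12.SI
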