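import Crest.Agent.R12.SI.Defs

/-! Row 12, block SI: the pointwise sieve identity.  Prefix for helper lemmas: `pt_`. -/

set_option autoImplicit false

namespace Crest.Agent.R12.SI

open Crest.Agent.R17
open scoped ComplexConjugate

theorem pt_a_cv_le {α γ : O → ℂ} {n : O} (hn : Prim n) {c : ℝ}
    (h : ∀ a b, Prim a → Prim b → a * b = n → ‖α a * γ b‖ ≤ c) : ‖cv α γ n‖ ≤ dn n * c := by
  refine (norm_sum_le _ _).trans ?_
  rw [← card_anti hn, ← nsmul_eq_mul]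
  refine Finset.sum_le_card_nsmul _ _ _ fun p hp => ?_
  obtain ⟨h1, h2, h3⟩ := mem_anti.1 hp
  exact h _ _ h1 h2 h3

theorem pt_a_cv_gy {α γ : O → ℂ} {n : O} (hn : PSq n) {y : ℝ} (hα : ∀ x, ‖α x‖ ≤ gy 1000 y x)
    (hγ : ∀ x, ‖γ x‖ ≤ gy 1000 y x) : ‖cv α γ n‖ ≤ dn n * gy 1000 y n := by
  refine pt_a_cv_le hn.1 fun a b ha hb hab => ?_
  subst hab
  rw [gy_mul _ _ ha.ne_zero hb.ne_zero ((psq_mul_iff ha hb).1 hn).2.2, norm_mul]
  exact mul_le_mul (hα a) (hγ b) (norm_nonneg _) (gy_pos _ _ _).le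

theorem pt_a_prw_gy (Y P₁ P₂ : ℝ) (q : O) : ‖prw Y P₁ P₂ q‖ ≤ gy 1000 (Y ^ (32 / 100 : ℝ)) q := by
  unfold prw
  split_ifs with h
  · rw [gy_prime _ _ h.1 h.2.1, Complex.norm_real, Real.norm_of_nonneg (gx_pos _ _ _).le]
  · rw [norm_zero]; exact (gy_pos _ _ _).le

theorem pt_a_w3_gy (Y : ℝ) (i : ℕ) (x : O) : ‖w3 Y i x‖ ≤ gy 1000 (Y ^ (32 / 100 : ℝ)) x := by
  have hg := gy_pos 1000 (Y ^ (32 / 100 : ℝ)) x
  unfold w3
  split_ifs with h
  · rw [Complex.norm_real, Real.norm_of_nonneg (by positivity)]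
    exact div_le_self hg.le (le_add_of_nonneg_right (Nat.cast_nonneg _))
  · rw [norm_zero]; exact hg.le

theorem pt_a_w3'_w3 (Y : ℝ) (i : ℕ) (x : O) : ‖w3' Y i x‖ ≤ ‖w3 Y i x‖ := by
  classical
  by_cases h : E2 Y i x
  · unfold w3'
    rw [norm_mul]
    refine mul_le_of_le_one_right (norm_nonneg _) ?_
    have h2 : ((pfs x).filter fun p => nm p ≤ Y ^ (34 / 100 : ℝ)).card ≤ 2 :=
      h.2.1 ▸ Finset.card_filter_le _ _
    generalize ((pfs x).filter fun p => nm p ≤ Y ^ (34 / 100 : ℝ)).card = k at h2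
    interval_cases k <;> norm_num
  · simp [w3', w3, h]

theorem pt_a_w3'_gy (Y : ℝ) (i : ℕ) (x : O) : ‖w3' Y i x‖ ≤ gy 1000 (Y ^ (32 / 100 : ℝ)) x :=
  (pt_a_w3'_w3 Y i x).trans (pt_a_w3_gy Y i x)

theorem pt_a_R2 (Y : ℝ) {n : O} (hn : PSq n) :
    ‖R2 Y n‖ ≤ 1 / 2 * (dn n * gy 1000 (Y ^ (32 / 100 : ℝ)) n) := by
  rw [R2, norm_mul]
  refine mul_le_mul (by simp) (pt_a_cv_gy hn (pt_a_prw_gy Y _ _) (pt_a_prw_gy Y _ _)) (norm_nonneg _)
    (by norm_num)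

theorem pt_a_R3 {Y : ℝ} (hY : 2 ≤ Y) {n : O} (hn : PSq n) :
    ‖R3 Y n‖ ≤ 6 * (Y - 1) * (dn n * gy 1000 (Y ^ (32 / 100 : ℝ)) n) := by
  have h0 : 0 ≤ dn n * gy 1000 (Y ^ (32 / 100 : ℝ)) n := mul_nonneg (dn_nonneg n) (gy_pos _ _ _).le
  have h1 : ‖R3 Y n‖ ≤ (NY Y : ℝ) * (2 * (dn n * gy 1000 (Y ^ (32 / 100 : ℝ)) n)) := by
    refine (norm_sum_le _ _).trans ?_
    rw [← nsmul_eq_mul]
    conv_rhs => rw [← Finset.card_range (NY Y)]
    refine Finset.sum_le_card_nsmul _ _ _ fun i _ => (norm_sub_le _ _).trans ?_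
    have a1 := pt_a_cv_gy hn (pt_a_w3'_gy Y i) (pt_a_prw_gy Y (2 ^ i) (2 * 2 ^ i))
    have a2 := pt_a_cv_gy hn (pt_a_w3_gy Y i)
      (pt_a_prw_gy Y (2 ^ i) (min (2 * 2 ^ i) (Y ^ (34 / 100 : ℝ))))
    linarith
  have h2 := NY_le hY
  have h3 := Real.log_le_sub_one_of_pos (show 0 < Y by linarith)
  have h4 : (NY Y : ℝ) ≤ 3 * (Y - 1) := by linarith
  calc ‖R3 Y n‖ ≤ _ := h1
    _ ≤ 3 * (Y - 1) * (2 * (dn n * gy 1000 (Y ^ (32 / 100 : ℝ)) n)) :=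
        mul_le_mul_of_nonneg_right h4 (by positivity)
    _ = _ := by ring

theorem pt_a_cv_prime {α γ : O → ℂ} {p : O} (hp : Prime p) (hα : α 1 = 0) (hγ : γ 1 = 0) :
    cv α γ p = 0 := by
  refine Finset.sum_eq_zero fun q hq => ?_
  obtain ⟨h1, h2, h3⟩ := mem_anti.1 hq
  rcases hp.irreducible.isUnit_or_isUnit h3.symm with hu | hu
  · rw [h1.eq_one_of_isUnit hu, hα, zero_mul]
  · rw [h2.eq_one_of_isUnit hu, hγ, mul_zero]

theorem pt_a_prw_one (Y P₁ P₂ : ℝ) : prw Y P₁ P₂ 1 = 0 := by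
  unfold prw
  rw [if_neg fun h => not_prime_one h.1]

theorem pt_a_w3_one (Y : ℝ) (i : ℕ) : w3 Y i 1 = 0 := by
  unfold w3
  rw [if_neg]
  intro h
  have := h.2.1
  rw [pra_pfs_one] at this
  simp at this

theorem norm_cv_le {α γ : O → ℂ} (hα : ∀ x, ‖α x‖ ≤ 1) (hγ : ∀ x, ‖γ x‖ ≤ 1) {n : O} (hn : Prim n) :
    ‖cv α γ n‖ ≤ dn n := by
  have := pt_a_cv_le (α := α) (γ := γ) (c := 1) hn fun a b _ _ _ => by
    rw [norm_mul]
    exact mul_le_one₀ (hα a) (norm_nonneg _) (hγ b)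
  rwa [mul_one] at this

theorem norm_Lam_le (Y : ℝ) (n : O) : ‖Lam Y n‖ ≤ dn n := by
  classical
  refine (norm_sum_le _ _).trans ?_
  have := Finset.sum_le_card_nsmul (pdiv n)
    (fun d => ‖if nm d ≤ Y ^ (34 / 100 : ℝ) then mu d else 0‖) (1 : ℝ) fun d _ => by
      split_ifs
      · exact norm_mu_le d
      · simp
  rw [nsmul_eq_mul, mul_one] at this
  exact this

theorem norm_prw_le {Y : ℝ} (hY : 0 ≤ Y) (P₁ P₂ : ℝ) (q : O) : ‖prw Y P₁ P₂ q‖ ≤ 1 := by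
  exact (pt_a_prw_gy Y P₁ P₂ q).trans (gy_le_one _ (Real.rpow_nonneg hY _) _)

theorem norm_w3_le {Y : ℝ} (hY : 0 ≤ Y) (i : ℕ) (x : O) : ‖w3 Y i x‖ ≤ 1 := by
  exact (pt_a_w3_gy Y i x).trans (gy_le_one _ (Real.rpow_nonneg hY _) _)

/-- `ω_{≤ D}(x) ∈ {0, 1, 2}` -/
theorem norm_w3'_le {Y : ℝ} (hY : 0 ≤ Y) (i : ℕ) (x : O) : ‖w3' Y i x‖ ≤ 1 := by
  exact (pt_a_w3'_gy Y i x).trans (gy_le_one _ (Real.rpow_nonneg hY _) _)

/-- crude bound -/
theorem norm_Er_le {Y : ℝ} (hY : 2 ≤ Y) {n : O} (hn : PSq n) : ‖Er Y n‖ ≤ 10 * Y * dn n := by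
  classical
  have hY0 : 0 ≤ Y := by linarith
  have hd := one_le_dn hn.ne_zero
  have g0 := gy_pos 1000 (Y ^ (32 / 100 : ℝ)) n
  have g1 := gy_le_one 1000 (Real.rpow_nonneg hY0 (32 / 100 : ℝ)) n
  have g2 := gy_pos 1000 Y⁻¹ n
  have g3 := gy_le_one 1000 (inv_nonneg.2 hY0) n
  have hg : dn n * gy 1000 (Y ^ (32 / 100 : ℝ)) n ≤ dn n := mul_le_of_le_one_right (by linarith) g1
  have h1 : ‖(if Prime n then 1 else 0 : ℂ)‖ ≤ 1 := by split_ifs <;> simp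
  have h2 := norm_Lam_le Y n
  have h3 : ‖Lam Y n * ((gy 1000 Y⁻¹ n - gy 1000 (Y ^ (32 / 100 : ℝ)) n : ℝ) : ℂ)‖ ≤ dn n := by
    rw [norm_mul, Complex.norm_real, Real.norm_eq_abs]
    refine (mul_le_of_le_one_right (norm_nonneg _) (abs_le.2 ⟨by linarith, by linarith⟩)).trans h2
  have h4 := pt_a_R2 Y hn
  have h5 := (pt_a_R3 hY hn).trans (mul_le_mul_of_nonneg_left hg (by linarith))
  unfold Er
  refine (norm_add_le _ _).trans ?_
  refine (add_le_add_left (norm_add_le _ _) _).trans ?_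
  refine (add_le_add_left (add_le_add_left (norm_add_le _ _) _) _).trans ?_
  refine (add_le_add_left (add_le_add_left (add_le_add_left (norm_sub_le _ _) _) _) _).trans ?_
  nlinarith

/-- `1 - exp (-S) ≤ S`, `S = ∑_{p ∣ n} (y / N p)^κ` -/
theorem one_sub_gy_le (κ : ℕ) {y : ℝ} (hy : 0 ≤ y) (n : O) :
    1 - gy κ y n ≤ ∑ p ∈ pfs n, (y / nm p) ^ κ := by
  have h1 : gy κ y n = Real.exp (-∑ p ∈ pfs n, (y / nm p) ^ κ) := by
    rw [← Finset.sum_neg_distrib, Real.exp_sum]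
    rfl
  have h2 := Real.add_one_le_exp (-∑ p ∈ pfs n, (y / nm p) ^ κ)
  linarith

/-- if `n` has a prime factor of norm `< Y^0.31` then `gy y₀ n ≤ exp (-Y^10)`, and every term of
`R2 n`, `R3 n` is at most `gy y₀ n` in modulus (`gy_mul`, `gy_prime`) -/
theorem small_prime {Y : ℝ} (hY : 2 ≤ Y) {n p : O} (hn : PSq n) (hp : p ∈ pfs n)
    (h : nm p < Y ^ (31 / 100 : ℝ)) :
    ‖R2 Y n + R3 Y n - Lam Y n * (gy 1000 (Y ^ (32 / 100 : ℝ)) n : ℂ)‖ ≤ 10 * dn n * Y ^ (-(3 : ℝ)) := by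
  have hY0 : 0 < Y := by linarith
  have hd := dn_nonneg n
  set g := gy 1000 (Y ^ (32 / 100 : ℝ)) n with hg
  have g0 : 0 < g := gy_pos _ _ _
  have hp0 : 0 < nm p := by linarith [two_le_nm (pra_of_mem_pfs hp).1]
  have h1 : Y ^ (1 / 100 : ℝ) ≤ Y ^ (32 / 100 : ℝ) / nm p := by
    rw [le_div_iff₀ hp0, show (32 / 100 : ℝ) = 1 / 100 + 31 / 100 by norm_num, Real.rpow_add hY0]
    exact mul_le_mul_of_nonneg_left h.le (Real.rpow_nonneg hY0.le _)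
  have h2 : Y ^ 4 ≤ (Y ^ (32 / 100 : ℝ) / nm p) ^ 1000 := by
    refine le_trans ?_ (pow_le_pow_left₀ (Real.rpow_nonneg hY0.le _) h1 1000)
    rw [← Real.rpow_natCast (Y ^ (1 / 100 : ℝ)), ← Real.rpow_mul hY0.le, ← Real.rpow_natCast]
    exact Real.rpow_le_rpow_of_exponent_le (by linarith) (by norm_num)
  have h3 : g ≤ (Y ^ 4)⁻¹ := by
    refine (gy_le_gx 1000 (Real.rpow_nonneg hY0.le _) hp).trans ?_
    rw [gx, Real.exp_neg]
    refine inv_anti₀ (by positivity) (h2.trans ?_)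
    linarith [Real.add_one_le_exp ((Y ^ (32 / 100 : ℝ) / nm p) ^ 1000)]
  have h4 : Y * g ≤ Y ^ (-(3 : ℝ)) := by
    rw [Real.rpow_neg hY0.le, show (3 : ℝ) = ((3 : ℕ) : ℝ) by norm_num, Real.rpow_natCast]
    calc Y * g ≤ Y * (Y ^ 4)⁻¹ := mul_le_mul_of_nonneg_left h3 hY0.le
      _ = (Y ^ 3)⁻¹ := by field_simp
  have h5 := pt_a_R2 Y hn
  have h6 := pt_a_R3 hY hn
  have h7 : ‖Lam Y n * (g : ℂ)‖ ≤ dn n * g := by
    rw [norm_mul, Complex.norm_real, Real.norm_of_nonneg g0.le]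
    exact mul_le_mul_of_nonneg_right (norm_Lam_le Y n) g0.le
  have h8 : 0 ≤ dn n * g := mul_nonneg hd g0.le
  rw [← hg] at h5 h6
  calc ‖R2 Y n + R3 Y n - Lam Y n * (g : ℂ)‖ ≤ ‖R2 Y n‖ + ‖R3 Y n‖ + ‖Lam Y n * (g : ℂ)‖ :=
        (norm_sub_le _ _).trans (add_le_add_left (norm_add_le _ _) _)
    _ ≤ 10 * Y * (dn n * g) := by nlinarith
    _ = 10 * dn n * (Y * g) := by ring
    _ ≤ 10 * dn n * Y ^ (-(3 : ℝ)) := mul_le_mul_of_nonneg_left h4 (by positivity)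

theorem prime_case {Y : ℝ} (hY : 2 ≤ Y) {p : O} (hp : Prime p) (h : Prim p) (h1 : Y ^ (999 / 1000 : ℝ) ≤ nm p) :
    Lam Y p = 1 ∧ R2 Y p = 0 ∧ R3 Y p = 0 := by
  classical
  refine ⟨?_, ?_, ?_⟩
  · have h2 : Y ^ (34 / 100 : ℝ) < nm p :=
      (Real.rpow_lt_rpow_of_exponent_lt (by linarith) (by norm_num)).trans_le h1
    have h3 : (1 : ℝ) ≤ Y ^ (34 / 100 : ℝ) := Real.one_le_rpow (by linarith) (by norm_num)
    unfold Lam
    rw [sum_pdiv_sqfree hp.squarefree, pfs_prime hp h,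
      show ({p} : Finset O).powerset = {∅, {p}} from rfl, Finset.sum_pair (by simp)]
    simp only [Finset.prod_empty, Finset.prod_singleton, nm_one, mu_one, if_pos h3,
      if_neg (not_le.2 h2), add_zero]
  · rw [R2, pt_a_cv_prime hp (pt_a_prw_one _ _ _) (pt_a_prw_one _ _ _), mul_zero]
  · refine Finset.sum_eq_zero fun i _ => ?_
    rw [pt_a_cv_prime hp (by rw [w3', pt_a_w3_one, zero_mul]) (pt_a_prw_one _ _ _),
      pt_a_cv_prime hp (pt_a_w3_one _ _) (pt_a_prw_one _ _ _), sub_zero]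

open Classical in
theorem ptc_cv {S : Finset O} (hS : ∀ p ∈ S, Prime p ∧ Prim p) (α : O → ℂ) {γ : O → ℂ}
    (hγ : ∀ q, γ q ≠ 0 → Prime q) :
    cv α γ (∏ p ∈ S, p) = ∑ q ∈ S, α (∏ p ∈ S.erase q, p) * γ q := by
  have hn : Prim (∏ p ∈ S, p) := prim_prod fun p hp => (hS p hp).2
  rw [cv, ← Finset.sum_image (g := fun q => (∏ p ∈ S.erase q, p, q))
    (f := fun p : O × O => α p.1 * γ p.2) fun _ _ _ _ h => (Prod.ext_iff.1 h).2]
  refine (Finset.sum_subset (fun x hx => ?_) fun x hx hx' => ?_).symm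
  · obtain ⟨q, hq, rfl⟩ := Finset.mem_image.1 hx
    exact mem_anti.2 ⟨prim_prod fun p hp => (hS p (Finset.mem_of_mem_erase hp)).2, (hS q hq).2,
      Finset.prod_erase_mul S (fun p => p) hq⟩
  · by_contra h0
    obtain ⟨-, h₂, h₃⟩ := mem_anti.1 hx
    have hq : x.2 ∈ S := by
      rw [← pfs_prod hS]
      exact (mem_pfs hn.ne_zero).2 ⟨hγ _ (right_ne_zero_of_mul h0), h₂, h₃ ▸ dvd_mul_left _ _⟩
    refine hx' (Finset.mem_image.2 ⟨x.2, hq, Prod.ext ?_ rfl⟩)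
    exact mul_right_cancel₀ h₂.ne_zero ((Finset.prod_erase_mul S (fun p => p) hq).trans h₃.symm)

theorem ptc_prw {Y P₁ P₂ : ℝ} (q : O) (h : prw Y P₁ P₂ q ≠ 0) : Prime q := by
  by_contra h'
  exact h (if_neg fun h'' => h' h''.1)

open Classical in
theorem ptc_Lam {Y : ℝ} (hY : 2 ≤ Y) {n : O} (hn : n ≠ 0)
    (h : ∀ p ∈ pfs n, Y ^ (31 / 100 : ℝ) ≤ nm p) :
    Lam Y n = 1 - (((pfs n).filter fun p => nm p ≤ Y ^ (34 / 100 : ℝ)).card : ℂ) := by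
  have h1 : (1 : O) ∉ pfs n := fun h1 => ((mem_pfs hn).1 h1).1.ne_one rfl
  rw [Lam, ← Finset.sum_subset (s₁ := insert 1 (pfs n)), Finset.sum_insert h1, nm_one,
    if_pos (Real.one_le_rpow (by linarith) (by norm_num)), mu_one, Finset.card_filter, sub_eq_add_neg]
  · congr 1
    push_cast
    rw [← Finset.sum_neg_distrib]
    refine Finset.sum_congr rfl fun p hp => ?_
    rw [mu_prime ((mem_pfs hn).1 hp).1]
    split_ifs <;> simp
  · intro d hd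
    rcases Finset.mem_insert.1 hd with rfl | hd
    · exact (mem_pdiv hn).2 ⟨prim_one, one_dvd n⟩
    · exact (mem_pdiv hn).2 ((mem_pfs hn).1 hd).2
  · intro d hd hd'
    obtain ⟨h₁, h₂⟩ := (mem_pdiv hn).1 hd
    rw [Finset.mem_insert, not_or] at hd'
    obtain ⟨p, hp, hp', hpd⟩ := h₁.exists_prime_dvd hd'.1
    have hpn : p ∈ pfs n := (mem_pfs hn).2 ⟨hp, hp', hpd.trans h₂⟩
    obtain ⟨m, hm, rfl⟩ := hp'.exists_mul h₁ hpd
    obtain ⟨r, hr, hr', hrm⟩ := hm.exists_prime_dvd fun h1 => hd'.2 (by rwa [h1, mul_one])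
    have a := h p hpn
    have b := (h r ((mem_pfs hn).2 ⟨hr, hr', (hrm.mul_left p).trans h₂⟩)).trans
      (nm_le_of_dvd hrm hm.ne_zero)
    refine if_neg (not_le.2 ?_)
    calc Y ^ (34 / 100 : ℝ) < Y ^ (31 / 100 + 31 / 100 : ℝ) :=
          Real.rpow_lt_rpow_of_exponent_lt (by linarith) (by norm_num)
      _ = Y ^ (31 / 100 : ℝ) * Y ^ (31 / 100 : ℝ) := Real.rpow_add (by linarith) _ _
      _ ≤ nm p * nm m := mul_le_mul a b (by positivity) (nm_nonneg p)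
      _ = _ := (nm_mul p m).symm

open Classical in
theorem ptc_class {Y : ℝ} {S : Finset O} (hS : ∀ p ∈ S, Prime p ∧ Prim p) (h3 : S.card = 3)
    (h : ∀ p ∈ S, Y ^ (31 / 100 : ℝ) ≤ nm p) {q₀ : O} (hq₀ : q₀ ∈ S) (hmax : ∀ p ∈ S, nm p ≤ nm q₀)
    (i : ℕ) : ∑ q ∈ S, w3 Y i (∏ p ∈ S.erase q, p) * prw Y (2 ^ i) (2 * 2 ^ i) q =
      dy i (fun _ => (gy 1000 (Y ^ (32 / 100 : ℝ)) (∏ p ∈ S, p) : ℂ)) q₀ := by
  have hS' : ∀ q, ∀ p ∈ S.erase q, Prime p ∧ Prim p := fun q p hp =>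
    hS p (Finset.mem_of_mem_erase hp)
  unfold dy
  split_ifs with hi
  · have hc : (((S.filter fun p => (2 : ℝ) ^ i < nm p).card : ℕ) : ℂ) ≠ 0 :=
      Nat.cast_ne_zero.2 (Finset.card_ne_zero.2 ⟨q₀, Finset.mem_filter.2 ⟨hq₀, hi.1⟩⟩)
    rw [← mul_div_cancel₀ (gy 1000 (Y ^ (32 / 100 : ℝ)) (∏ p ∈ S, p) : ℂ) hc, ← nsmul_eq_mul,
      ← Finset.sum_const, Finset.sum_filter]
    refine Finset.sum_congr rfl fun q hq => ?_
    split_ifs with hq'
    · have e2 : E2 Y i (∏ p ∈ S.erase q, p) := by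
        refine ⟨⟨prim_prod fun p hp => (hS' q p hp).2, squarefree_prod (hS' q)⟩, ?_⟩
        rw [pfs_prod (hS' q), Finset.card_erase_of_mem hq, h3]
        exact ⟨rfl, fun p hp => ⟨h p (Finset.mem_of_mem_erase hp),
          (hmax p (Finset.mem_of_mem_erase hp)).trans hi.2⟩⟩
      have e3 : (S.filter fun p => (2 : ℝ) ^ i < nm p).card =
          1 + ((S.erase q).filter fun p => (2 : ℝ) ^ i < nm p).card := by
        rw [Finset.filter_erase, add_comm, Finset.card_erase_add_one (Finset.mem_filter.2 ⟨hq, hq'⟩)]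
      rw [w3, prw, if_pos e2, if_pos ⟨(hS q hq).1, (hS q hq).2, hq', (hmax q hq).trans hi.2⟩, gy, gy,
        pfs_prod (hS' q), pfs_prod hS, ← Finset.prod_erase_mul S _ hq, e3]
      push_cast
      ring
    · rw [prw, if_neg fun h' => hq' h'.2.2.1, mul_zero]
  · refine Finset.sum_eq_zero fun q hq => ?_
    by_contra h0
    have a : E2 Y i (∏ p ∈ S.erase q, p) := by
      by_contra h'
      exact left_ne_zero_of_mul h0 (if_neg h')
    have b : Prime q ∧ Prim q ∧ (2 : ℝ) ^ i < nm q ∧ nm q ≤ 2 * 2 ^ i := by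
      by_contra h'
      exact right_ne_zero_of_mul h0 (if_neg h')
    refine hi ⟨b.2.2.1.trans_le (hmax q hq), ?_⟩
    by_cases e : q₀ = q
    · exact e ▸ b.2.2.2
    · exact (a.2.2 q₀ (by rw [pfs_prod (hS' q)]; exact Finset.mem_erase.2 ⟨e, hq₀⟩)).2

/-- `n = p q r`, all norms `≥ Y^0.31` (so `≤ Y^0.381 ≤ 2^NY`): `Lam n = 1 - ω_{≤ D}(n)`; only the
largest dyadic class `i` contributes to `R3`, once for each prime of that class, with weight
`1 / (number of such primes)` -/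
theorem three_case {Y : ℝ} (hY : 2 ≤ Y) {n : O} (hn : PSq n) (h3 : (pfs n).card = 3)
    (h1' : nm n ≤ Y ^ (1001 / 1000 : ℝ)) (h : ∀ p ∈ pfs n, Y ^ (31 / 100 : ℝ) ≤ nm p) :
    R2 Y n = 0 ∧ R3 Y n = Lam Y n * (gy 1000 (Y ^ (32 / 100 : ℝ)) n : ℂ) := by
  classical
  have hS : ∀ p ∈ pfs n, Prime p ∧ Prim p := fun p hp =>
    ⟨((mem_pfs hn.ne_zero).1 hp).1, ((mem_pfs hn.ne_zero).1 hp).2.1⟩
  have hL := ptc_Lam hY hn.ne_zero h
  have e : n = ∏ p ∈ pfs n, p := (hn.1.rad_eq hn.2).symm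
  generalize pfs n = S at h3 h hS hL e
  subst e
  have hS' : ∀ q, ∀ p ∈ S.erase q, Prime p ∧ Prim p := fun q p hp =>
    hS p (Finset.mem_of_mem_erase hp)
  constructor
  · rw [R2, ptc_cv hS _ ptc_prw, Finset.sum_eq_zero, mul_zero]
    intro q hq
    by_contra h0
    have h1 := pfs_prime (ptc_prw _ (left_ne_zero_of_mul h0)) (prim_prod fun p hp => (hS' q p hp).2)
    have h2 := congrArg Finset.card h1
    rw [pfs_prod (hS' q), Finset.card_erase_of_mem hq, h3, Finset.card_singleton] at h2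
    omega
  obtain ⟨q₀, hq₀, hmax⟩ := Finset.exists_max_image S nm (Finset.card_pos.1 (by omega))
  have h1 : 1 < nm q₀ := by linarith [two_le_nm (hS q₀ hq₀).1]
  have h2 : nm q₀ ≤ 2 ^ NY Y := by
    refine le_trans ?_ (le_NY (by linarith))
    have hY0 : 0 < Y := by linarith
    have a : (Y ^ (31 / 100 : ℝ)) ^ 2 ≤ ∏ p ∈ S.erase q₀, nm p := by
      have := Finset.prod_le_prod (s := S.erase q₀) (f := fun _ => Y ^ (31 / 100 : ℝ)) (g := nm)
        (fun _ _ => by positivity) fun p hp => h p (Finset.mem_of_mem_erase hp)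
      rwa [Finset.prod_const, Finset.card_erase_of_mem hq₀, h3] at this
    rw [nm_prod, ← Finset.prod_erase_mul S _ hq₀] at h1'
    refine le_of_mul_le_mul_left ?_ (by positivity : 0 < (Y ^ (31 / 100 : ℝ)) ^ 2)
    calc (Y ^ (31 / 100 : ℝ)) ^ 2 * nm q₀ ≤ Y ^ (1001 / 1000 : ℝ) :=
          (mul_le_mul_of_nonneg_right a (nm_nonneg _)).trans h1'
      _ ≤ Y ^ (31 / 100 + 31 / 100 + 1 : ℝ) :=
          Real.rpow_le_rpow_of_exponent_le (by linarith) (by norm_num)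
      _ = _ := by rw [Real.rpow_add hY0, Real.rpow_add hY0, Real.rpow_one, sq]
  rw [R3, ← sum_dy (fun _ => (gy 1000 (Y ^ (32 / 100 : ℝ)) (∏ p ∈ S, p) : ℂ)) h1 h2, Finset.mul_sum]
  refine Finset.sum_congr rfl fun i _ => ?_
  rw [← ptc_class hS h3 h hq₀ hmax, ptc_cv hS _ ptc_prw, ptc_cv hS _ ptc_prw, ← Finset.sum_sub_distrib,
    Finset.mul_sum, hL]
  refine Finset.sum_congr rfl fun q hq => ?_
  rw [w3', pfs_prod (hS' q), Finset.filter_erase]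
  by_cases hD : nm q ≤ Y ^ (34 / 100 : ℝ)
  · have a : prw Y (2 ^ i) (min (2 * 2 ^ i) (Y ^ (34 / 100 : ℝ))) q = prw Y (2 ^ i) (2 * 2 ^ i) q := by
      simp only [prw, le_min_iff, hD, and_true]
    rw [a, ← Finset.card_erase_add_one (Finset.mem_filter.2 ⟨hq, hD⟩ :
      q ∈ S.filter fun p => nm p ≤ Y ^ (34 / 100 : ℝ))]
    push_cast
    ring
  · have a : prw Y (2 ^ i) (min (2 * 2 ^ i) (Y ^ (34 / 100 : ℝ))) q = 0 :=
      if_neg fun h' => hD (h'.2.2.2.trans (min_le_right _ _))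
    have b : q ∉ S.filter fun p => nm p ≤ Y ^ (34 / 100 : ℝ) := fun h' => hD (Finset.mem_filter.1 h').2
    rw [a, Finset.erase_eq_of_notMem b]
    ring

/-- `n = p q`: `Lam n = 1 - [p ≤ D] - [q ≤ D]`, both `≤ D` is impossible, both `> D` forces both
`≤ Y^0.661` -/
theorem two_case {Y : ℝ} (hY : 2 ≤ Y) {n : O} (hn : PSq n) (h2 : (pfs n).card = 2)
    (h1 : Y ^ (999 / 1000 : ℝ) ≤ nm n) (h1' : nm n ≤ Y ^ (1001 / 1000 : ℝ)) :
    R3 Y n = 0 ∧ R2 Y n = Lam Y n * (gy 1000 (Y ^ (32 / 100 : ℝ)) n : ℂ) := by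
  classical
  have hY0 : 0 < Y := by linarith
  have hY1 : 1 < Y := by linarith
  have hS : ∀ p ∈ pfs n, Prime p ∧ Prim p := fun p hp =>
    ⟨((mem_pfs hn.ne_zero).1 hp).1, ((mem_pfs hn.ne_zero).1 hp).2.1⟩
  have e : n = ∏ p ∈ pfs n, p := (hn.1.rad_eq hn.2).symm
  have hL : Lam Y n = ∑ S ∈ (pfs n).powerset,
      if nm (∏ p ∈ S, p) ≤ Y ^ (34 / 100 : ℝ) then mu (∏ p ∈ S, p) else 0 :=
    sum_pdiv_sqfree hn.2 _
  have hg : gy 1000 (Y ^ (32 / 100 : ℝ)) n = ∏ p ∈ pfs n, gx 1000 (Y ^ (32 / 100 : ℝ)) (nm p) := rfl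
  rw [hL, hg]
  clear hL hg
  generalize pfs n = S at h2 hS e
  subst e
  constructor
  · have z : ∀ i, ∀ q ∈ S, w3 Y i (∏ p ∈ S.erase q, p) = 0 := fun i q hq => by
      refine if_neg fun h => ?_
      have := h.2.1
      rw [pfs_prod fun p hp => hS p (Finset.mem_of_mem_erase hp), Finset.card_erase_of_mem hq, h2] at this
      omega
    refine Finset.sum_eq_zero fun i _ => ?_
    rw [ptc_cv hS _ ptc_prw, ptc_cv hS _ ptc_prw, Finset.sum_eq_zero fun q hq => by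
      rw [w3', z i q hq, zero_mul, zero_mul], Finset.sum_eq_zero fun q hq => by
      rw [z i q hq, zero_mul], sub_zero]
  rw [R2, ptc_cv hS _ ptc_prw]
  obtain ⟨p, q, hpq, rfl⟩ := Finset.card_eq_two.1 h2
  have hp := hS p (by simp)
  have hq := hS q (by simp)
  rw [Finset.prod_pair hpq, nm_mul] at h1 h1'
  have hD : 0 < Y ^ (34 / 100 : ℝ) := by positivity
  have a1 : (1 : ℝ) ≤ Y ^ (34 / 100 : ℝ) := Real.one_le_rpow hY1.le (by norm_num)
  have a2 : Y ^ (34 / 100 : ℝ) * Y ^ (34 / 100 : ℝ) < nm p * nm q := by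
    rw [← Real.rpow_add hY0]
    exact (Real.rpow_lt_rpow_of_exponent_lt hY1 (by norm_num)).trans_le h1
  have a3 : ¬ nm p * nm q ≤ Y ^ (34 / 100 : ℝ) := by nlinarith
  have a4 : nm p * nm q ≤ Y ^ (34 / 100 : ℝ) * Y ^ (662 / 1000 : ℝ) := by
    rw [← Real.rpow_add hY0]
    exact h1'.trans (Real.rpow_le_rpow_of_exponent_le hY1.le (by norm_num))
  have a5 : Y ^ (662 / 1000 : ℝ) ≤ Y := by
    conv_rhs => rw [← Real.rpow_one Y]
    exact Real.rpow_le_rpow_of_exponent_le hY1.le (by norm_num)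
  have e1 : ({p, q} : Finset O).erase p = {q} := by
    rw [Finset.erase_insert (by simpa using hpq)]
  have e2 : ({p, q} : Finset O).erase q = {p} := by
    rw [Finset.pair_comm, Finset.erase_insert (by simpa using hpq.symm)]
  rw [Finset.sum_pair hpq, e1, e2, Finset.sum_powerset_insert (by simpa using hpq),
    show ({q} : Finset O).powerset = {∅, {q}} from rfl, Finset.sum_pair (by simp),
    Finset.sum_pair (by simp), Finset.prod_pair hpq]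
  simp only [Finset.prod_empty, Finset.prod_singleton, nm_one, mu_one, if_pos a1, insert_empty_eq,
    Finset.prod_pair hpq, nm_mul, if_neg a3, mu_prime hp.1, mu_prime hq.1]
  have np := nm_nonneg p
  have nq := nm_nonneg q
  by_cases b1 : nm p ≤ Y ^ (34 / 100 : ℝ)
  · have b2 : ¬ nm q ≤ Y ^ (34 / 100 : ℝ) := fun b2 => by nlinarith [mul_le_mul b1 b2 nq hD.le]
    have c : ∀ P, prw Y (Y ^ (34 / 100 : ℝ)) P p = 0 := fun P => if_neg fun h => not_lt.2 b1 h.2.2.1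
    rw [c, c, if_pos b1, if_neg b2]
    ring
  by_cases b2 : nm q ≤ Y ^ (34 / 100 : ℝ)
  · have c : ∀ P, prw Y (Y ^ (34 / 100 : ℝ)) P q = 0 := fun P => if_neg fun h => not_lt.2 b2 h.2.2.1
    rw [c, c, if_pos b2, if_neg b1]
    ring
  rw [if_neg b1, if_neg b2]
  rw [not_le] at b1 b2
  have c1 : nm p ≤ Y ^ (662 / 1000 : ℝ) := by
    by_contra h
    nlinarith [mul_lt_mul'' b2 (not_le.1 h) hD.le (by positivity)]
  have c2 : nm q ≤ Y ^ (662 / 1000 : ℝ) := by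
    by_contra h
    nlinarith [mul_lt_mul'' b1 (not_le.1 h) hD.le (by positivity)]
  unfold prw
  rw [if_pos ⟨hq.1, hq.2, b2, c2⟩, if_pos ⟨hp.1, hp.2, b1, c1.trans a5⟩, if_pos ⟨hp.1, hp.2, b1, c1⟩,
    if_pos ⟨hq.1, hq.2, b2, c2.trans a5⟩]
  push_cast
  ring

theorem ptb_pow {Y x : ℝ} (hY : 2 ≤ Y) (h0 : 0 ≤ x) (h : x ≤ Y ^ (-(1 / 2) : ℝ)) :
    x ^ 1000 ≤ Y ^ (-(3 : ℝ)) := by
  refine (pow_le_pow_left₀ h0 h 1000).trans ?_
  rw [← Real.rpow_natCast, ← Real.rpow_mul (by linarith)]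
  exact Real.rpow_le_rpow_of_exponent_le (by linarith) (by norm_num)

theorem ptb_gy {Y : ℝ} (hY : 2 ≤ Y) (n : O) : 1 - gy 1000 Y⁻¹ n ≤ dn n * Y ^ (-(3 : ℝ)) := by
  have hY0 : 0 < Y := by linarith
  refine (one_sub_gy_le 1000 (inv_nonneg.2 hY0.le) n).trans ?_
  refine (Finset.sum_le_card_nsmul _ _ (Y ^ (-(3 : ℝ))) fun p hp => ?_).trans ?_
  · have h2 := two_le_nm (pra_of_mem_pfs hp).1
    refine ptb_pow hY (by positivity) ((div_le_self (by positivity) (by linarith)).trans ?_)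
    rw [← Real.rpow_neg_one]
    exact Real.rpow_le_rpow_of_exponent_le (by linarith) (by norm_num)
  · rw [nsmul_eq_mul]
    exact mul_le_mul_of_nonneg_right (card_pfs_le_dn n) (by positivity)

/-- `Er = 1[prime] - Lam (1 - gy y₁) - Lam gy y₀ + R2 + R3`; cases `ω(n) = 1, 2, 3`; `ω(n) = 0` and
(`ω(n) ≥ 4`, all primes `≥ Y^0.31`) are impossible -/
theorem norm_Er_window {Y : ℝ} (hY : 2 ≤ Y) {n : O} (hn : PSq n) (h1 : Y ^ (999 / 1000 : ℝ) ≤ nm n)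
    (h1' : nm n ≤ Y ^ (1001 / 1000 : ℝ)) : ‖Er Y n‖ ≤ 20 * dn n ^ 2 * Y ^ (-(3 : ℝ)) := by
  classical
  have hY0 : 0 < Y := by linarith
  have hY1 : 1 < Y := by linarith
  have hd := one_le_dn hn.ne_zero
  have hy : 0 < Y ^ (-(3 : ℝ)) := by positivity
  have g1 := ptb_gy hY n
  have g2 := gy_le_one 1000 (inv_nonneg.2 hY0.le) n
  have hdd : dn n * Y ^ (-(3 : ℝ)) ≤ dn n ^ 2 * Y ^ (-(3 : ℝ)) :=
    mul_le_mul_of_nonneg_right (by nlinarith) hy.le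
  have hd1 : Y ^ (-(3 : ℝ)) ≤ dn n * Y ^ (-(3 : ℝ)) := le_mul_of_one_le_left hy.le hd
  by_cases hp : Prime n
  · obtain ⟨a, b, c⟩ := prime_case hY hp hn.1 h1
    have g3 := gy_le_one 1000 (Real.rpow_nonneg hY0.le (32 / 100 : ℝ)) n
    have g4 := one_sub_gy_le 1000 (Real.rpow_nonneg hY0.le (32 / 100 : ℝ)) n
    rw [pfs_prime hp hn.1, Finset.sum_singleton] at g4
    have hn0 : 0 < nm n := lt_of_lt_of_le (by positivity) h1
    have g5 : (Y ^ (32 / 100 : ℝ) / nm n) ^ 1000 ≤ Y ^ (-(3 : ℝ)) := by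
      refine ptb_pow hY (by positivity) ?_
      rw [div_le_iff₀ hn0]
      refine le_trans ?_ (mul_le_mul_of_nonneg_left h1 (by positivity))
      rw [← Real.rpow_add hY0]
      exact Real.rpow_le_rpow_of_exponent_le hY1.le (by norm_num)
    rw [Er, if_pos hp, a, b, c, sub_self, zero_add, add_zero, add_zero, one_mul, Complex.norm_real,
      Real.norm_eq_abs, abs_le]
    constructor <;> nlinarith
  have hA : ‖Lam Y n * ((1 - gy 1000 Y⁻¹ n : ℝ) : ℂ)‖ ≤ dn n ^ 2 * Y ^ (-(3 : ℝ)) := by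
    rw [norm_mul, Complex.norm_real, Real.norm_of_nonneg (by linarith), sq, mul_assoc]
    exact mul_le_mul (norm_Lam_le Y n) g1 (by linarith) (by linarith)
  have hB : ‖R2 Y n + R3 Y n - Lam Y n * (gy 1000 (Y ^ (32 / 100 : ℝ)) n : ℂ)‖ ≤
      10 * dn n * Y ^ (-(3 : ℝ)) := by
    by_cases hs : ∃ p ∈ pfs n, nm p < Y ^ (31 / 100 : ℝ)
    · obtain ⟨p, hp, h⟩ := hs
      exact small_prime hY hn hp h
    have h : ∀ p ∈ pfs n, Y ^ (31 / 100 : ℝ) ≤ nm p := fun p hp => not_lt.1 fun h => hs ⟨p, hp, h⟩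
    have e : n = ∏ p ∈ pfs n, p := (hn.1.rad_eq hn.2).symm
    have h0 : (pfs n).card ≠ 0 := fun h0 => by
      rw [Finset.card_eq_zero.1 h0, Finset.prod_empty] at e
      rw [e, nm_one] at h1
      exact absurd h1 (not_le.2 (Real.one_lt_rpow hY1 (by norm_num)))
    have h1 : (pfs n).card ≠ 1 := fun h1 => by
      obtain ⟨q, hq⟩ := Finset.card_eq_one.1 h1
      have hq' := (pra_of_mem_pfs (hq ▸ Finset.mem_singleton_self q : q ∈ pfs n)).1
      rw [hq, Finset.prod_singleton] at e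
      exact hp (e ▸ hq')
    have h4 : (pfs n).card < 4 := by
      by_contra h4
      have a := Finset.prod_le_prod (s := pfs n) (f := fun _ => Y ^ (31 / 100 : ℝ)) (g := nm)
        (fun _ _ => by positivity) h
      rw [Finset.prod_const, ← nm_prod, ← e] at a
      have b : (Y ^ (31 / 100 : ℝ)) ^ 4 ≤ (Y ^ (31 / 100 : ℝ)) ^ (pfs n).card :=
        pow_le_pow_right₀ (Real.one_le_rpow hY1.le (by norm_num)) (not_lt.1 h4)
      rw [← Real.rpow_natCast, ← Real.rpow_mul hY0.le] at b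
      exact absurd ((b.trans a).trans h1')
        (not_le.2 (Real.rpow_lt_rpow_of_exponent_lt hY1 (by norm_num)))
    have z : R2 Y n + R3 Y n - Lam Y n * (gy 1000 (Y ^ (32 / 100 : ℝ)) n : ℂ) = 0 := by
      rcases (show (pfs n).card = 2 ∨ (pfs n).card = 3 by omega) with h2 | h3
      · obtain ⟨a, b⟩ := two_case hY hn h2 ‹_› h1'
        rw [a, b, add_zero, sub_self]
      · obtain ⟨a, b⟩ := three_case hY hn h3 h1' h
        rw [a, b, zero_add, sub_self]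
    rw [z, norm_zero]
    positivity
  have e : Er Y n = (R2 Y n + R3 Y n - Lam Y n * (gy 1000 (Y ^ (32 / 100 : ℝ)) n : ℂ)) -
      Lam Y n * ((1 - gy 1000 Y⁻¹ n : ℝ) : ℂ) := by
    rw [Er, if_neg hp]
    push_cast
    ring
  rw [e]
  refine (norm_sub_le _ _).trans ?_
  nlinarith

end Crest.Agent.R12.SI
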