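import Crest.Agent.R12.SI.Buch

/-! Row 12, block SI: three primes near `Y^(1/3)`.  Prefix for helper lemmas: `thr_`. -/

set_option autoImplicit false

namespace Crest.Agent.R12.SI

open Crest.Agent.R17
open scoped ComplexConjugate

/-- `x = p q`, `N p ∈ [max (Y^0.31) (A / 2B), 2B]`, `N q ≤ 2A / N p` with `2A / N p ≥ N q ≥ Y^0.31`:
`card_qball_le`, `sum_inv_prime_le` -/
theorem card_E2 : ∃ C Y₀ : ℝ, 0 < C ∧ ∀ (Y A : ℝ) (i : ℕ) (S : Finset O), Y₀ ≤ Y → 1 ≤ A → A ≤ 4 * (2 ^ i) ^ 2 →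
    (∀ x ∈ S, E2 Y i x ∧ A < nm x ∧ nm x ≤ 2 * A) →
    (S.card : ℝ) ≤ C * A * (1 + Real.log (4 * (2 ^ i) ^ 2 / A)) / Real.log Y ^ 2 := by
  classical
  obtain ⟨C₁, hC₁, h₁⟩ := card_qball_le
  obtain ⟨C₂, hC₂, h₂⟩ := sum_inv_prime_le
  refine ⟨2 * C₁ * C₂ / (31 / 100) ^ 2, 16, by positivity, fun Y A i S hY hA hAB hS => ?_⟩
  set B : ℝ := 2 ^ i with hB
  set z : ℝ := Y ^ (31 / 100 : ℝ) with hz
  have hB0 : 0 < B := by positivity
  have hA0 : 0 < A := by linarith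
  have hY0 : 0 < Y := by linarith
  have hlY : 0 < Real.log Y := Real.log_pos (by linarith)
  have hz2 : 2 ≤ z := by
    calc (2 : ℝ) = ((2 : ℝ) ^ (4 : ℝ)) ^ (1 / 4 : ℝ) := by
          rw [← Real.rpow_mul (by norm_num)]; norm_num
      _ ≤ Y ^ (1 / 4 : ℝ) := Real.rpow_le_rpow (by positivity) (by norm_num; linarith) (by norm_num)
      _ ≤ z := Real.rpow_le_rpow_of_exponent_le (by linarith) (by norm_num)
  have hlz : Real.log z = 31 / 100 * Real.log Y := Real.log_rpow hY0 _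
  have hlz0 : 0 < Real.log z := by rw [hlz]; positivity
  have hL : 0 ≤ Real.log (4 * B ^ 2 / A) := Real.log_nonneg ((one_le_div hA0).2 hAB)
  rcases S.eq_empty_or_nonempty with rfl | ⟨x₀, hx₀⟩
  · simp only [Finset.card_empty, Nat.cast_zero]
    positivity
  have hzB : z ≤ 2 * B := by
    obtain ⟨⟨-, h2, h3⟩, -⟩ := hS x₀ hx₀
    obtain ⟨p, hp⟩ := Finset.card_pos.1 (show 0 < (pfs x₀).card by omega)
    exact (h3 p hp).1.trans (h3 p hp).2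
  set X₁ : ℝ := max z (A / (2 * B)) with hX₁
  have hX1 : X₁ ≤ 2 * B := max_le hzB (by rw [div_le_iff₀ (by positivity)]; nlinarith)
  have hzX : z ≤ X₁ := le_max_left _ _
  set T : Finset O := (qball (2 * B)).filter fun p => X₁ ≤ nm p ∧ z ≤ 2 * A / nm p with hT
  have hsub : S ⊆ T.biUnion fun p => (qball (2 * A / nm p)).image fun q => p * q := by
    intro x hx
    obtain ⟨⟨h1, h2, h3⟩, h4, h5⟩ := hS x hx
    obtain ⟨p, q, hpq, he⟩ := Finset.card_eq_two.1 h2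
    have hp : p ∈ pfs x := by rw [he]; simp
    have hq : q ∈ pfs x := by rw [he]; simp
    have hx' : x = p * q := by
      conv_lhs => rw [← h1.1.rad_eq h1.2, rad, he, Finset.prod_pair hpq]
    obtain ⟨p1, p2, -⟩ := pra_of_mem_pfs hp
    obtain ⟨q1, q2, -⟩ := pra_of_mem_pfs hq
    have hp0 : 0 < nm p := nm_pos p1.ne_zero
    have hq0 : 0 < nm q := nm_pos q1.ne_zero
    rw [hx', nm_mul] at h4 h5
    have hq' : nm q ≤ 2 * A / nm p := by rw [le_div_iff₀ hp0]; linarith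
    refine Finset.mem_biUnion.2 ⟨p, Finset.mem_filter.2 ⟨mem_qball.2 ⟨(h3 p hp).2, p1, p2⟩,
      max_le (h3 p hp).1 ?_, (h3 q hq).1.trans hq'⟩,
      Finset.mem_image.2 ⟨q, mem_qball.2 ⟨hq', q1, q2⟩, hx'.symm⟩⟩
    rw [div_le_iff₀ (by positivity)]
    have := mul_le_mul_of_nonneg_left (h3 q hq).2 hp0.le
    linarith
  have e1 : (S.card : ℝ) ≤ ∑ p ∈ T, ((qball (2 * A / nm p)).card : ℝ) := by
    have := (Finset.card_le_card hsub).trans (Finset.card_biUnion_le.trans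
      (Finset.sum_le_sum fun p _ => Finset.card_image_le))
    exact_mod_cast this
  have e2 : ∑ p ∈ T, ((qball (2 * A / nm p)).card : ℝ) ≤
      ∑ p ∈ T, 2 * C₁ * A / Real.log z * (nm p)⁻¹ := by
    refine Finset.sum_le_sum fun p hp => ?_
    obtain ⟨-, -, h3⟩ := Finset.mem_filter.1 hp
    refine (h₁ _ (hz2.trans h3)).trans ?_
    calc C₁ * (2 * A / nm p) / Real.log (2 * A / nm p) ≤ C₁ * (2 * A / nm p) / Real.log z :=
          div_le_div_of_nonneg_left (mul_nonneg hC₁.le (by linarith)) hlz0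
            (Real.log_le_log (by linarith) h3)
      _ = _ := by ring
  have e3 := h₂ X₁ (2 * B) T (hz2.trans hzX) hX1 fun p hp => by
    obtain ⟨h1, h2, -⟩ := Finset.mem_filter.1 hp
    obtain ⟨h3, h4, h5⟩ := mem_qball.1 h1
    exact ⟨h4, h5, h2, h3⟩
  have hX0 : 0 < X₁ := by linarith
  have e4 : Real.log (2 * B / X₁) ≤ Real.log (4 * B ^ 2 / A) := by
    refine Real.log_le_log (by positivity) ?_
    calc 2 * B / X₁ ≤ 2 * B / (A / (2 * B)) :=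
          div_le_div_of_nonneg_left (by positivity) (by positivity) (le_max_right _ _)
      _ = _ := by field_simp; ring
  have e5 : C₂ * (1 + Real.log (2 * B / X₁)) / Real.log X₁ ≤
      C₂ * (1 + Real.log (4 * B ^ 2 / A)) / Real.log z :=
    div_le_div₀ (by positivity) (by gcongr) hlz0 (Real.log_le_log (by linarith) hzX)
  rw [← Finset.mul_sum] at e2
  calc (S.card : ℝ) ≤ 2 * C₁ * A / Real.log z * (C₂ * (1 + Real.log (4 * B ^ 2 / A)) / Real.log z) :=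
        e1.trans (e2.trans (mul_le_mul_of_nonneg_left (e3.trans e5) (by positivity)))
    _ = _ := by rw [hlz]; field_simp

theorem thr_a_tel {σ u₀ : ℝ} (hσ : 1 < σ) (hu : 0 < u₀) (M : ℕ) :
    ∑ m ∈ Finset.range M, min (u₀ * σ ^ m) (u₀ * σ ^ m)⁻¹ ≤ 2 * (1 + σ) / (σ - 1) := by
  have hσ0 : 0 < σ := by linarith
  have hσ1 : 0 < σ - 1 := by linarith
  have key : ∀ u : ℝ, 0 < u →
      min u u⁻¹ ≤ 2 * (1 + σ) / (σ - 1) * ((1 + u)⁻¹ - (1 + u * σ)⁻¹) := by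
    intro u hu
    have e : 2 * (1 + σ) / (σ - 1) * ((1 + u)⁻¹ - (1 + u * σ)⁻¹) =
        2 * (1 + σ) * u / ((1 + u) * (1 + u * σ)) := by
      field_simp
      ring
    rw [e, le_div_iff₀ (by positivity)]
    rcases le_total u 1 with h | h
    · have h1 : (1 + u) * (1 + u * σ) ≤ 2 * (1 + σ) :=
        mul_le_mul (by linarith) (by nlinarith) (by positivity) (by norm_num)
      calc min u u⁻¹ * ((1 + u) * (1 + u * σ)) ≤ u * (2 * (1 + σ)) :=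
            mul_le_mul (min_le_left _ _) h1 (by positivity) hu.le
        _ = _ := by ring
    · have h1 : (1 + u) * (1 + u * σ) ≤ (2 * u) * (u * (1 + σ)) :=
        mul_le_mul (by linarith) (by nlinarith) (by positivity) (by positivity)
      calc min u u⁻¹ * ((1 + u) * (1 + u * σ)) ≤ u⁻¹ * ((2 * u) * (u * (1 + σ))) :=
            mul_le_mul (min_le_right _ _) h1 (by positivity) (by positivity)
        _ = _ := by field_simp
  calc _ ≤ ∑ m ∈ Finset.range M, 2 * (1 + σ) / (σ - 1) *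
        ((1 + u₀ * σ ^ m)⁻¹ - (1 + u₀ * σ ^ (m + 1))⁻¹) :=
        Finset.sum_le_sum fun m _ => by
          have := key (u₀ * σ ^ m) (by positivity)
          rwa [mul_assoc u₀, ← pow_succ] at this
    _ = 2 * (1 + σ) / (σ - 1) * ((1 + u₀ * σ ^ 0)⁻¹ - (1 + u₀ * σ ^ M)⁻¹) := by
        rw [← Finset.mul_sum, Finset.sum_range_sub' (fun m => (1 + u₀ * σ ^ m)⁻¹)]
    _ ≤ _ := by
        refine mul_le_of_le_one_right (by positivity) ?_
        have h1 : (1 + u₀ * σ ^ 0)⁻¹ ≤ 1 := inv_le_one_of_one_le₀ (by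
          have : 0 < u₀ * σ ^ 0 := by positivity
          linarith)
        have h2 : 0 ≤ (1 + u₀ * σ ^ M)⁻¹ := by positivity
        linarith

theorem thr_a_one : ∃ C : ℝ, 0 < C ∧ ∀ (Y : ℝ) (M : ℕ), 0 < Y →
    ∑ m ∈ Finset.range M, min ((2 : ℝ) ^ m / Y) (Y / 2 ^ m) * ((2 : ℝ) ^ m) ^ (5 / 6 : ℝ) ≤
      C * Y ^ (5 / 6 : ℝ) := by
  set σ : ℝ := (2 : ℝ) ^ (1 / 6 : ℝ) with hσ
  have hσ1 : 1 < σ := Real.one_lt_rpow (by norm_num) (by norm_num)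
  have hσ2 : 0 < σ - 1 := by linarith
  refine ⟨2 * (1 + σ) / (σ - 1), by positivity, fun Y M hY => ?_⟩
  have pw : ∀ t : ℝ, 0 < t → (t ^ (1 / 6 : ℝ)) ^ 6 = t ∧ (t ^ (1 / 6 : ℝ)) ^ 5 = t ^ (5 / 6 : ℝ) := by
    intro t ht
    constructor <;> rw [← Real.rpow_natCast, ← Real.rpow_mul ht.le] <;> norm_num
  set y : ℝ := Y ^ (1 / 6 : ℝ) with hy
  have hy0 : 0 < y := by positivity
  obtain ⟨y6, y5⟩ := pw Y hY
  refine le_trans ?_ (mul_le_mul_of_nonneg_right (thr_a_tel hσ1 (inv_pos.2 hy0) M) (by positivity))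
  rw [Finset.sum_mul]
  refine Finset.sum_le_sum fun m _ => ?_
  obtain ⟨t6, t5⟩ := pw ((2 : ℝ) ^ m) (by positivity)
  rw [← Real.rpow_pow_comm (by norm_num), ← hσ] at t6 t5
  have ht0 : 0 < σ ^ m := by positivity
  rw [← t5, ← t6, ← y5, ← hy]
  conv_lhs => rw [← y6, ← hy]
  generalize σ ^ m = t at ht0
  obtain ⟨u, rfl⟩ : ∃ u, t = y * u := ⟨t / y, by field_simp⟩
  have hu : 0 < u := (pos_iff_pos_of_mul_pos ht0).1 hy0
  have e1 : (y * u) ^ 6 / y ^ 6 = u ^ 6 := by field_simp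
  have e2 : y ^ 6 / (y * u) ^ 6 = (u ^ 6)⁻¹ := by field_simp
  have e3 : y⁻¹ * (y * u) = u := by field_simp
  rw [e1, e2, e3, mul_pow, mul_comm (y ^ 5), ← mul_assoc]
  refine mul_le_mul_of_nonneg_right ?_ (by positivity)
  rcases le_total u 1 with h | h
  · have h1 : u ^ 6 * u ^ 5 ≤ u := by
      rw [← pow_add]
      exact pow_le_of_le_one hu.le h (by norm_num)
    have h2 : u ≤ u⁻¹ := h.trans (one_le_inv₀ hu |>.2 h)
    rw [min_eq_left h2]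
    exact (mul_le_mul_of_nonneg_right (min_le_left _ _) (by positivity)).trans h1
  · have h2 : u⁻¹ ≤ u := (inv_le_one_of_one_le₀ h).trans h
    rw [min_eq_right h2]
    refine (mul_le_mul_of_nonneg_right (min_le_right _ _) (by positivity)).trans (le_of_eq ?_)
    field_simp

/-- `(i, j) ↦ (i + j, 2 i + 2 - j)` is injective; two geometric series -/
theorem geom2 : ∃ C : ℝ, 0 < C ∧ ∀ (Y : ℝ) (N N' : ℕ), 1 ≤ Y →
    ∑ i ∈ Finset.range N, ∑ j ∈ (Finset.range N').filter (fun j => j ≤ 2 * i + 2),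
      min ((2 : ℝ) ^ j * 2 ^ i / Y) (Y / (2 ^ j * 2 ^ i)) * ((2 : ℝ) ^ j * 2 ^ i) ^ (5 / 6 : ℝ) *
        ((2 : ℝ) ^ j / (2 ^ i) ^ 2) ^ (1 / 48 : ℝ) ≤ C * Y ^ (5 / 6 : ℝ) := by
  classical
  obtain ⟨C, hC, h⟩ := thr_a_one
  set r : ℝ := (1 / 2 : ℝ) ^ (1 / 48 : ℝ) with hr
  have hr0 : 0 ≤ r := by positivity
  have hr1 : r < 1 := Real.rpow_lt_one (by norm_num) (by norm_num) (by norm_num)
  have hr2 : 0 < (1 - r)⁻¹ := inv_pos.2 (by linarith)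
  refine ⟨C * ((4 : ℝ) ^ (1 / 48 : ℝ) * (1 - r)⁻¹), by positivity, fun Y N N' hY => ?_⟩
  have hY0 : 0 < Y := by linarith
  set F : ℕ → ℝ := fun m => min ((2 : ℝ) ^ m / Y) (Y / 2 ^ m) * ((2 : ℝ) ^ m) ^ (5 / 6 : ℝ) with hF
  set G : ℕ → ℝ := fun k => (4 : ℝ) ^ (1 / 48 : ℝ) * r ^ k with hG
  have hF0 : ∀ m, 0 ≤ F m := fun m => mul_nonneg (le_min (by positivity) (by positivity)) (by positivity)
  have hG0 : ∀ k, 0 ≤ G k := fun k => by simp only [hG]; positivity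
  set φ : ℕ × ℕ → ℕ × ℕ := fun p => (p.2 + p.1, 2 * p.1 + 2 - p.2) with hφ
  set s : Finset (ℕ × ℕ) := (Finset.range N ×ˢ Finset.range N').filter fun p => p.2 ≤ 2 * p.1 + 2 with hs
  have e1 : ∑ i ∈ Finset.range N, ∑ j ∈ (Finset.range N').filter (fun j => j ≤ 2 * i + 2),
      min ((2 : ℝ) ^ j * 2 ^ i / Y) (Y / (2 ^ j * 2 ^ i)) * ((2 : ℝ) ^ j * 2 ^ i) ^ (5 / 6 : ℝ) *
        ((2 : ℝ) ^ j / (2 ^ i) ^ 2) ^ (1 / 48 : ℝ) = ∑ p ∈ s, F (φ p).1 * G (φ p).2 := by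
    rw [hs, Finset.sum_filter, Finset.sum_product]
    refine Finset.sum_congr rfl fun i _ => ?_
    rw [Finset.sum_filter]
    refine Finset.sum_congr rfl fun j _ => ?_
    split_ifs with hj
    · simp only [hF, hG, hφ, pow_add]
      congr 1
      obtain ⟨k, hk⟩ := Nat.exists_eq_add_of_le hj
      have h1 : (2 : ℝ) ^ j / (2 ^ i) ^ 2 = 4 * (1 / 2) ^ k := by
        have h2 : (2 : ℝ) ^ (2 * i + 2) = 2 ^ j * 2 ^ k := by rw [hk, pow_add]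
        rw [pow_add, pow_mul'] at h2
        rw [one_div, inv_pow]
        field_simp
        linarith
      rw [h1, Real.mul_rpow (by norm_num) (by positivity), hr, Real.rpow_pow_comm (by norm_num),
        show 2 * i + 2 - j = k by omega]
    · rfl
  have hinj : Set.InjOn φ s := by
    intro p hp q hq hpq
    have h1 := (Finset.mem_filter.1 (Finset.mem_coe.1 hp)).2
    have h2 := (Finset.mem_filter.1 (Finset.mem_coe.1 hq)).2
    simp only [hφ, Prod.mk.injEq] at hpq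
    exact Prod.ext (by omega) (by omega)
  have hsub : s.image φ ⊆ Finset.range (N' + N) ×ˢ Finset.range (2 * N + 3) := by
    intro q hq
    obtain ⟨p, hp, rfl⟩ := Finset.mem_image.1 hq
    have h1 := Finset.mem_product.1 (Finset.mem_filter.1 hp).1
    simp only [Finset.mem_range] at h1
    simp only [hφ, Finset.mem_product, Finset.mem_range]
    omega
  have e2 : ∑ k ∈ Finset.range (2 * N + 3), G k ≤ (4 : ℝ) ^ (1 / 48 : ℝ) * (1 - r)⁻¹ := by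
    simp only [hG]
    rw [← Finset.mul_sum, ← tsum_geometric_of_lt_one hr0 hr1]
    exact mul_le_mul_of_nonneg_left ((summable_geometric_of_lt_one hr0 hr1).sum_le_tsum _
      fun k _ => pow_nonneg hr0 k) (by positivity)
  rw [e1, ← Finset.sum_image (f := fun q : ℕ × ℕ => F q.1 * G q.2) hinj]
  calc _ ≤ ∑ q ∈ Finset.range (N' + N) ×ˢ Finset.range (2 * N + 3), F q.1 * G q.2 :=
        Finset.sum_le_sum_of_subset_of_nonneg hsub fun q _ _ => mul_nonneg (hF0 _) (hG0 _)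
    _ = (∑ m ∈ Finset.range (N' + N), F m) * ∑ k ∈ Finset.range (2 * N + 3), G k := by
        rw [Finset.sum_mul_sum, Finset.sum_product]
    _ ≤ C * Y ^ (5 / 6 : ℝ) * ((4 : ℝ) ^ (1 / 48 : ℝ) * (1 - r)⁻¹) :=
        mul_le_mul (h Y _ hY0) e2 (Finset.sum_nonneg fun k _ => hG0 k) (by positivity)
    _ = _ := by ring

theorem thrb_alg {a A B L N₁ N₂ C₁ C₂ : ℝ} (ha : 0 ≤ a) (hA : 1 ≤ A) (hB : 1 ≤ B) (hAB : A ≤ 4 * B ^ 2)
    (hL : 0 < L) (hC₁ : 0 < C₁) (hC₂ : 0 < C₂) (h₁ : N₁ ≤ C₁ * A * (1 + Real.log (4 * B ^ 2 / A)) / L ^ 2)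
    (h₂ : N₂ ≤ C₂ * B / L) (h₁' : 0 ≤ N₁) (h₂' : 0 ≤ N₂) :
    √(a * (A + A ^ (3 / 4 : ℝ) * B ^ (1 / 2 : ℝ))) * √N₁ * √N₂ ≤
      √(150 * C₁ * C₂) * (√a / L ^ (3 / 2 : ℝ)) *
        ((A * B) ^ (5 / 6 : ℝ) * (A / B ^ 2) ^ (1 / 48 : ℝ)) := by
  have hA0 : 0 < A := by linarith
  have hB0 : 0 < B := by linarith
  obtain ⟨u, hu, rfl⟩ : ∃ u : ℝ, 0 < u ∧ A = u ^ 48 :=
    ⟨A ^ (1 / 48 : ℝ), by positivity, by rw [← Real.rpow_natCast, ← Real.rpow_mul hA0.le]; norm_num⟩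
  obtain ⟨v, hv, rfl⟩ : ∃ v : ℝ, 0 < v ∧ B = v ^ 48 :=
    ⟨B ^ (1 / 48 : ℝ), by positivity, by rw [← Real.rpow_natCast, ← Real.rpow_mul hB0.le]; norm_num⟩
  obtain ⟨w, hw, rfl⟩ : ∃ w : ℝ, 0 < w ∧ L = w ^ 2 := ⟨√L, by positivity, (Real.sq_sqrt hL.le).symm⟩
  have pw : ∀ (x : ℝ) (n m : ℕ) (r : ℝ), 0 < x → (n : ℝ) * r = m → (x ^ n) ^ r = x ^ m := by
    intro x n m r hx h
    rw [← Real.rpow_natCast, ← Real.rpow_mul hx.le, h, Real.rpow_natCast]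
  have e1 : (u ^ 48) ^ (3 / 4 : ℝ) = u ^ 36 := pw u 48 36 _ hu (by norm_num)
  have e2 : (v ^ 48) ^ (1 / 2 : ℝ) = v ^ 24 := pw v 48 24 _ hv (by norm_num)
  have e3 : (u ^ 48 * v ^ 48) ^ (5 / 6 : ℝ) = (u * v) ^ 40 := by
    rw [← mul_pow]; exact pw _ 48 40 _ (by positivity) (by norm_num)
  have e4 : (u ^ 48 / (v ^ 48) ^ 2) ^ (1 / 48 : ℝ) = (u / v ^ 2) ^ 1 := by
    rw [show u ^ 48 / (v ^ 48) ^ 2 = (u / v ^ 2) ^ 48 by rw [div_pow]; ring]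
    exact pw _ 48 1 _ (by positivity) (by norm_num)
  have e5 : (w ^ 2) ^ (3 / 2 : ℝ) = w ^ 3 := pw w 2 3 _ hw (by norm_num)
  rw [e1, e2, e3, e4, e5]
  have b1 : u ^ 12 ≤ 2 * v ^ 24 := by
    refine le_of_pow_le_pow_left₀ (n := 4) (by norm_num) (by positivity) ?_
    have : 0 ≤ v ^ 96 := by positivity
    calc (u ^ 12) ^ 4 = u ^ 48 := by ring
      _ ≤ 4 * (v ^ 48) ^ 2 := hAB
      _ = 4 * v ^ 96 := by ring
      _ ≤ 16 * v ^ 96 := by linarith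
      _ = (2 * v ^ 24) ^ 4 := by ring
  have b2 : u ^ 48 + u ^ 36 * v ^ 24 ≤ 3 * (u ^ 36 * v ^ 24) := by
    have := mul_le_mul_of_nonneg_left b1 (show 0 ≤ u ^ 36 by positivity)
    nlinarith
  have b3 : 1 + Real.log (4 * (v ^ 48) ^ 2 / u ^ 48) ≤ 50 * (v ^ 4 / u ^ 2) := by
    set s := 2 * (v ^ 4 / u ^ 2) with hs
    have s0 : 0 < s := by positivity
    have s1 : 4 * (v ^ 48) ^ 2 / u ^ 48 ≤ s ^ 24 := by
      have : s ^ 24 = 2 ^ 24 * ((v ^ 48) ^ 2 / u ^ 48) := by rw [hs]; field_simp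
      rw [this, mul_div_assoc]
      exact mul_le_mul_of_nonneg_right (by norm_num) (by positivity)
    have s2 : 1 ≤ 4 * (v ^ 48) ^ 2 / u ^ 48 := (one_le_div hA0).2 hAB
    have s3 : 1 ≤ s := le_of_pow_le_pow_left₀ (n := 24) (by norm_num) s0.le
      (by rw [one_pow]; exact s2.trans s1)
    have s4 := Real.log_le_log (by linarith) s1
    rw [Real.log_pow] at s4
    have s5 := Real.log_le_sub_one_of_pos s0
    push_cast at s4
    linarith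
  have h₃ : N₁ ≤ C₁ * u ^ 48 * (50 * (v ^ 4 / u ^ 2)) / (w ^ 2) ^ 2 :=
    h₁.trans (by gcongr)
  rw [← Real.sqrt_mul (by positivity), ← Real.sqrt_mul (by positivity)]
  refine Real.sqrt_le_iff.2 ⟨by positivity, ?_⟩
  calc a * (u ^ 48 + u ^ 36 * v ^ 24) * N₁ * N₂
      ≤ a * (3 * (u ^ 36 * v ^ 24)) * (C₁ * u ^ 48 * (50 * (v ^ 4 / u ^ 2)) / (w ^ 2) ^ 2) *
        (C₂ * v ^ 48 / w ^ 2) := by gcongr
    _ = _ := by
      rw [mul_pow, mul_pow, div_pow, Real.sq_sqrt ha, Real.sq_sqrt (by positivity)]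
      field_simp
      ring

theorem thrb_log {δ Y : ℝ} (hδ : 0 < δ) (hY : 2 ≤ Y) :
    Y ^ (5 / 6 - δ) ≤ (5 / δ) ^ 5 * (Y ^ (5 / 6 : ℝ) / Real.log Y ^ (5 : ℝ)) := by
  have hY0 : 0 < Y := by linarith
  have hL : 0 < Real.log Y := Real.log_pos (by linarith)
  have h1 := Real.log_le_rpow_div hY0.le (show 0 < δ / 5 by positivity)
  have h2 : Real.log Y ^ (5 : ℝ) ≤ (5 / δ) ^ 5 * Y ^ δ := by
    rw [show (5 : ℝ) = ((5 : ℕ) : ℝ) from by norm_num, Real.rpow_natCast]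
    refine (pow_le_pow_left₀ hL.le h1 5).trans_eq ?_
    rw [div_pow, ← Real.rpow_natCast (Y ^ (δ / 5)), ← Real.rpow_mul hY0.le]
    push_cast
    rw [div_mul_cancel₀ _ (by norm_num)]
    field_simp
  rw [← mul_div_assoc, le_div_iff₀ (by positivity), Real.rpow_sub hY0, div_mul_eq_mul_div,
    div_le_iff₀ (by positivity)]
  calc _ ≤ Y ^ (5 / 6 : ℝ) * ((5 / δ) ^ 5 * Y ^ δ) := by gcongr
    _ = _ := by ring

theorem thrb_E2 {Y : ℝ} (hY : 0 < Y) {i : ℕ} {x : O} (h : E2 Y i x) :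
    Y ^ (62 / 100 : ℝ) ≤ nm x ∧ nm x ≤ 4 * (2 ^ i) ^ 2 := by
  obtain ⟨h1, h2, h3⟩ := h
  have e : nm x = ∏ p ∈ pfs x, nm p := by
    conv_lhs => rw [← h1.1.rad_eq h1.2, rad, nm_prod]
  rw [e]
  constructor
  · have := Finset.prod_le_prod (s := pfs x) (f := fun _ => Y ^ (31 / 100 : ℝ)) (g := nm)
      (fun _ _ => by positivity) fun p hp => (h3 p hp).1
    rw [Finset.prod_const, h2, ← Real.rpow_natCast, ← Real.rpow_mul hY.le] at this
    rwa [show (31 / 100 : ℝ) * ((2 : ℕ) : ℝ) = 62 / 100 by norm_num] at this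
  · have := Finset.prod_le_prod (s := pfs x) (f := nm) (g := fun _ => (2 : ℝ) * 2 ^ i)
      (fun p _ => nm_nonneg p) fun p hp => (h3 p hp).2
    rw [Finset.prod_const, h2] at this
    linarith

theorem thrb_rpow {Y c : ℝ} (hY : Real.exp 100 ≤ Y) (hc : 0 ≤ c) : 100 * c + 1 ≤ Y ^ c := by
  refine (Real.add_one_le_exp _).trans ?_
  rw [Real.exp_mul]
  exact Real.rpow_le_rpow (Real.exp_pos _).le hY hc

theorem thrb_al (n : O) (l : ℤ) : ‖al n ^ l‖ ≤ 1 := bla_norm_le n l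

theorem thrb_prw {Y B P : ℝ} {q : O} (h : prw Y B P q ≠ 0) :
    Prime q ∧ Prim q ∧ B < nm q ∧ nm q ≤ P := by
  by_contra h'
  exact h (if_neg h')

theorem thrb_rng {Y A B : ℝ} (hY100 : Real.exp 100 ≤ Y) (hA1 : 1 ≤ A) (hB1 : 1 ≤ B)
    (hAB : A ≤ 4 * B ^ 2) (hA2 : Y ^ (62 / 100 : ℝ) ≤ 2 * A) (n1 : Y ^ (1 - 1 / 1000 : ℝ) < A * B)
    (n2 : A * B < Y ^ (1 + 1 / 1000 : ℝ)) :
    Y ^ (1 / 4 : ℝ) ≤ B ∧ B ≤ Y ^ (1 / 2 - 1 / 100 : ℝ) ∧ B ≤ 4 * A ^ 2 := by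
  have hY' : 2 ≤ Y := by have := Real.add_one_le_exp 100; linarith
  have hY0 : 0 < Y := by linarith
  have hB4 : Y ^ (1 / 4 : ℝ) ≤ B := by
    by_contra h
    push Not at h
    have a1 : B ^ 3 ≤ Y ^ (3 / 4 : ℝ) := by
      refine (pow_le_pow_left₀ (by linarith) h.le 3).trans_eq ?_
      rw [← Real.rpow_natCast, ← Real.rpow_mul hY0.le]
      norm_num
    have a2 := thrb_rpow hY100 (show (0 : ℝ) ≤ 249 / 1000 by norm_num)
    have a3 : Y ^ (1 - 1 / 1000 : ℝ) = Y ^ (249 / 1000 : ℝ) * Y ^ (3 / 4 : ℝ) := by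
      rw [← Real.rpow_add hY0]; norm_num
    have a4 : A * B ≤ 4 * B ^ 2 * B := by gcongr
    have a5 : 0 < Y ^ (3 / 4 : ℝ) := by positivity
    nlinarith
  have hB5 : B ≤ Y ^ (1 / 2 - 1 / 100 : ℝ) := by
    have a2 := thrb_rpow hY100 (show (0 : ℝ) ≤ 109 / 1000 by norm_num)
    have a3 : Y ^ (109 / 1000 : ℝ) * Y ^ (1 + 1 / 1000 : ℝ) =
        Y ^ (62 / 100 : ℝ) * Y ^ (1 / 2 - 1 / 100 : ℝ) := by
      rw [← Real.rpow_add hY0, ← Real.rpow_add hY0]; norm_num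
    have a4 : Y ^ (62 / 100 : ℝ) * B ≤ 2 * A * B := by gcongr
    have a5 : 0 < Y ^ (62 / 100 : ℝ) := by positivity
    have a6 : 0 < Y ^ (1 + 1 / 1000 : ℝ) := by positivity
    refine le_of_mul_le_mul_left ?_ a5
    nlinarith
  have hB6 : B ≤ 4 * A ^ 2 := by
    have : Y ^ (1 / 2 - 1 / 100 : ℝ) ≤ Y ^ (62 / 100 : ℝ) :=
      Real.rpow_le_rpow_of_exponent_le (by linarith) (by norm_num)
    nlinarith
  exact ⟨hB4, hB5, hB6⟩

theorem thrb_N2d (l : ℤ) {C₂ Y B : ℝ} (hC₂ : 0 < C₂)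
    (hQ : ∀ X : ℝ, 2 ≤ X → ((qball X).card : ℝ) ≤ C₂ * X / Real.log X) (hY' : 2 ≤ Y) (hB1 : 1 ≤ B)
    (hB4 : Y ^ (1 / 4 : ℝ) ≤ B) (P : ℝ) :
    N2d (tw l (prw Y B P)) (2 * B) ≤ 128 * C₂ * B / Real.log Y := by
  classical
  have hY0 : 0 < Y := by linarith
  have hL0 : 0 < Real.log Y := Real.log_pos (by linarith)
  have n₂ : N2d (tw l (prw Y B P)) (2 * B) ≤ 128 * C₂ * B / Real.log Y := by
    have a1 : N2d (tw l (prw Y B P)) (2 * B) ≤ 16 * ((qball (2 * B)).card : ℝ) := by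
      unfold N2d qball
      rw [← Finset.sum_filter_of_ne (p := fun p => Prime p ∧ Prim p) fun m _ hm =>
        have h := thrb_prw (Y := Y) (B := B) (P := P) (q := m) fun h0 => hm (by simp [tw, h0])
        ⟨h.1, h.2.1⟩, Finset.card_eq_sum_ones, Nat.cast_sum, Finset.mul_sum]
      refine Finset.sum_le_sum fun m hm => ?_
      have h := (Finset.mem_filter.1 hm).2
      have a2 : ‖tw l (prw Y B P) m‖ ^ 2 ≤ 1 := by
        refine pow_le_one₀ (norm_nonneg _) ?_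
        rw [tw, norm_mul]
        exact mul_le_one₀ (norm_prw_le hY0.le _ _ _) (norm_nonneg _) (thrb_al m l)
      rw [dn_prime h.1 h.2, Nat.cast_one]
      linarith
    have a2 := hQ (2 * B) (by linarith)
    have a3 : Real.log Y / 4 ≤ Real.log (2 * B) := by
      have := Real.log_le_log (by positivity) (hB4.trans (show B ≤ 2 * B by linarith))
      rw [Real.log_rpow hY0] at this
      linarith
    have a4 : C₂ * (2 * B) / Real.log (2 * B) ≤ C₂ * (2 * B) / (Real.log Y / 4) := by gcongr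
    refine a1.trans ((mul_le_mul_of_nonneg_left (a2.trans a4) (by norm_num)).trans_eq ?_)
    field_simp
    norm_num
  exact n₂

/-- one pair of blocks.  If `α = 0` trivial, else `A ≤ 4 B²`, `A ≥ Y^0.62 / 2`.  `Bil_far` (`ε = 1/1000`)
unless `Y^0.33 ≤ B ≤ Y^0.39`.  `a ≤ Y^(-1/100)`: `StHi`.  Else `StRam`, `StBil` (`η = 1/100`, `C₃ = 5`),
`N2 α ≤ card_E2`, `N2d ≤ 16 · card (qball (2B))`, `A + A^(3/4) B^(1/2) ≤ 3 A^(3/4) B^(1/2)`,
`1 + log t ≤ C t^(1/24)` for `t = 4 B² / A ≥ 1`; `A^(7/8) B^(3/4) = (AB)^(5/6) (A / B²)^(1/24)` -/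
theorem block3 (h1 : StBil) (h2 : StHi) (h4 : StRam) (l : ℤ) : ∃ C Y₀ : ℝ, 0 < C ∧
    ∀ (Y a P : ℝ) (i j : ℕ) (α : O → ℂ), Y₀ ≤ Y → Y ^ (-(17 / 100) : ℝ) ≤ a → a ≤ 1 → P ≤ 2 * 2 ^ i →
    (∀ x, α x ≠ 0 → E2 Y i x) → (∀ x, ‖α x‖ ≤ 1) →
    ‖Bil a Y (tw l (dy j α)) (tw l (prw Y (2 ^ i) P)) (2 * 2 ^ j) (2 * 2 ^ i)‖ ≤
      C * (Real.sqrt a / Real.log Y ^ (3 / 2 : ℝ)) *
        (if j ≤ 2 * i + 2 then min ((2 : ℝ) ^ j * 2 ^ i / Y) (Y / (2 ^ j * 2 ^ i)) *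
          ((2 : ℝ) ^ j * 2 ^ i) ^ (5 / 6 : ℝ) * ((2 : ℝ) ^ j / (2 ^ i) ^ 2) ^ (1 / 48 : ℝ) else 0) +
      C * Y ^ (5 / 6 : ℝ) / Real.log Y ^ (5 : ℝ) := by
  classical
  obtain ⟨C₁, Y₁, hC₁, hE⟩ := card_E2
  obtain ⟨C₂, hC₂, hQ⟩ := card_qball_le
  obtain ⟨C₃, hC₃, hF⟩ := Bil_far 1 (1 / 6) (1 / 1000) (by norm_num)
  obtain ⟨δ, C₄, hδ, hH⟩ := h2 (1 / 100) 1 (by norm_num)
  obtain ⟨C₅, C₆, hB⟩ := h1 (1 / 100) 1 5 (by norm_num)
  obtain ⟨Y₂, hR⟩ := h4 l 1 1 C₆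
  set K : ℝ := C₃ * 5 ^ 5 + |C₄| * (5 / δ) ^ 5 + |C₅| + |C₅| * √(150 * C₁ * (128 * C₂)) with hK
  have k1 : 0 < C₃ * 5 ^ 5 := by positivity
  have k2 : 0 ≤ |C₄| * (5 / δ) ^ 5 := by positivity
  have k3 : 0 ≤ |C₅| := abs_nonneg _
  have k4 : 0 ≤ |C₅| * √(150 * C₁ * (128 * C₂)) := by positivity
  have hK0 : 0 < K := by linarith
  refine ⟨K, max (Real.exp 100) (max Y₁ Y₂), hK0, fun Y a P i j α hY ha ha1 hP hα hα1 => ?_⟩
  have hY100 : Real.exp 100 ≤ Y := (le_max_left _ _).trans hY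
  have hY1 : Y₁ ≤ Y := ((le_max_left _ _).trans (le_max_right _ _)).trans hY
  have hY2 : Y₂ ≤ Y := ((le_max_right _ _).trans (le_max_right _ _)).trans hY
  have hY' : 2 ≤ Y := by have := Real.add_one_le_exp 100; linarith
  have hY0 : 0 < Y := by linarith
  have hL : 100 ≤ Real.log Y := (Real.le_log_iff_exp_le hY0).2 hY100
  have hL0 : 0 < Real.log Y := by linarith
  have ha0 : 0 < a := (Real.rpow_pos_of_pos hY0 _).trans_le ha
  set A : ℝ := 2 ^ j with hA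
  set B : ℝ := 2 ^ i with hB'
  have hA1 : 1 ≤ A := one_le_pow₀ (by norm_num)
  have hB1 : 1 ≤ B := one_le_pow₀ (by norm_num)
  set T : ℝ := Y ^ (5 / 6 : ℝ) / Real.log Y ^ (5 : ℝ) with hT
  have hT0 : 0 ≤ T := by positivity
  set M : ℝ := if j ≤ 2 * i + 2 then min (A * B / Y) (Y / (A * B)) *
    (A * B) ^ (5 / 6 : ℝ) * (A / B ^ 2) ^ (1 / 48 : ℝ) else 0 with hM
  have hM0 : 0 ≤ M := by
    rw [hM]
    split_ifs
    · positivity
    · rfl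
  have hM1 : 0 ≤ K * (√a / Real.log Y ^ (3 / 2 : ℝ)) * M := by positivity
  rw [mul_div_assoc K, ← hT]
  by_cases h0 : ∀ x, dy j α x = 0
  · have : Bil a Y (tw l (dy j α)) (tw l (prw Y B P)) (2 * A) (2 * B) = 0 := by
      simp [Bil, tw, h0]
    rw [this, norm_zero]
    positivity
  push Not at h0
  obtain ⟨x, hx⟩ := h0
  have hdy : ∀ x, dy j α x ≠ 0 → E2 Y i x ∧ A < nm x ∧ nm x ≤ 2 * A := fun x hx => by
    have hc : A < nm x ∧ nm x ≤ 2 * A := by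
      by_contra h
      exact hx (if_neg h)
    exact ⟨hα x fun h => hx (by simp [dy, h]), hc⟩
  obtain ⟨x1, x2, x3⟩ := hdy x hx
  obtain ⟨x4, x5⟩ := thrb_E2 hY0 x1
  have hAB : A ≤ 4 * B ^ 2 := x2.le.trans x5
  have hA2 : Y ^ (62 / 100 : ℝ) ≤ 2 * A := x4.trans x3
  have sα : Supp (tw l (dy j α)) A (2 * A) := (supp_dy j fun b hb => (hα b hb).1).mul _
  have sβ : Supp (prw Y B P) B (2 * B) := fun q hq =>
    have h := thrb_prw hq
    ⟨psq_prime h.1 h.2.1, h.2.2.1, h.2.2.2.trans hP⟩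
  have sγ : Supp (tw l (prw Y B P)) B (2 * B) := sβ.mul _
  have dα : Dv 1 α := fun b => by
    by_cases hb : α b = 0
    · rw [hb, norm_zero]; exact pow_nonneg (dn_nonneg b) 1
    · rw [pow_one]; exact (hα1 b).trans (one_le_dn (hα b hb).1.ne_zero)
  have dα' : Dv 1 (tw l (dy j α)) := Dv.tw (Dv.dy dα j) l
  have dγ : Dv 1 (tw l (prw Y B P)) := Dv.tw (dv_prw hY0.le _ _) l
  by_cases hfar : A * B ≤ Y ^ (1 - 1 / 1000 : ℝ) ∨ Y ^ (1 + 1 / 1000 : ℝ) ≤ A * B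
  · have f1 := hF Y a A B _ _ (by linarith) ha0 ha1 (by linarith) (by linarith) sα sγ dα' dγ hfar
    have f2 := thrb_log one_pos hY'
    rw [show (5 / 6 - 1 : ℝ) = -(1 / 6) by norm_num, div_one, ← hT] at f2
    have f3 := mul_le_mul_of_nonneg_left f2 hC₃.le
    have f4 : C₃ * 5 ^ 5 * T ≤ K * T := mul_le_mul_of_nonneg_right (by linarith) hT0
    linarith
  push Not at hfar
  obtain ⟨n1, n2⟩ := hfar
  obtain ⟨hB4, hB5, hB6⟩ := thrb_rng hY100 hA1 hB1 hAB hA2 n1 n2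
  by_cases hs : a ≤ Y ^ (-(1 / 100) : ℝ)
  · have f1 := hH Y a A B _ _ hY' ha hs hA1 hB1 hAB hB6 sα sγ dα' dγ
    have f2 := thrb_log hδ hY'
    rw [← hT] at f2
    have f3 : C₄ * Y ^ (5 / 6 - δ) ≤ |C₄| * ((5 / δ) ^ 5 * T) :=
      (mul_le_mul_of_nonneg_right (le_abs_self _) (by positivity)).trans
        (mul_le_mul_of_nonneg_left f2 (abs_nonneg _))
    have f4 : |C₄| * (5 / δ) ^ 5 * T ≤ K * T := mul_le_mul_of_nonneg_right (by linarith) hT0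
    linarith
  have hBY : B ≤ Y := hB5.trans (by
    simpa using Real.rpow_le_rpow_of_exponent_le (by linarith : 1 ≤ Y)
      (show (1 / 2 - 1 / 100 : ℝ) ≤ 1 by norm_num))
  have sw := hR Y B _ hY2 hB4 hBY sβ (dv_prw hY0.le _ _)
    ((bvs_prw hY0.le B P).mono (by rw [Real.rpow_one]; exact hL) le_rfl)
  have f1 := hB Y a A B _ _ hY' (not_le.1 hs).le ha1 hA1 hB1 hAB hB5 sα sγ dα' dγ sw
  have n₁ : N2 (tw l (dy j α)) (2 * A) ≤ C₁ * A * (1 + Real.log (4 * B ^ 2 / A)) / Real.log Y ^ 2 := by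
    refine le_trans ?_ (hE Y A i ((ball (2 * A)).filter fun x => dy j α x ≠ 0) hY1 hA1 hAB
      fun x hx => hdy x (Finset.mem_filter.1 hx).2)
    unfold N2
    rw [← Finset.sum_filter_of_ne (p := fun x => dy j α x ≠ 0) fun m _ hm h0 => hm (by simp [tw, h0]),
      Finset.card_eq_sum_ones, Nat.cast_sum]
    refine Finset.sum_le_sum fun m _ => ?_
    rw [Nat.cast_one]
    refine pow_le_one₀ (norm_nonneg _) ?_
    rw [tw, norm_mul]
    exact mul_le_one₀ ((norm_dy_le _ _ _).trans (hα1 m)) (norm_nonneg _) (thrb_al m l)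
  have n₂ := thrb_N2d l hC₂ hQ hY' hB1 hB4 P
  have f2 := thrb_alg ha0.le hA1 hB1 hAB hL0 hC₁ (by positivity) n₁ n₂ (N2_nonneg _ _) (N2d_nonneg _ _)
  have hj : j ≤ 2 * i + 2 := by
    refine (pow_le_pow_iff_right₀ (show (1 : ℝ) < 2 by norm_num)).1 (hAB.trans_eq ?_)
    rw [hB']
    ring
  rw [if_pos hj] at hM
  set m := min (A * B / Y) (Y / (A * B)) with hm
  have hm0 : 0 ≤ m := by positivity
  have f3 := mul_le_mul_of_nonneg_left f2 (mul_nonneg k3 hm0)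
  have f4 : C₅ * T ≤ K * T :=
    mul_le_mul_of_nonneg_right (by linarith [le_abs_self C₅]) hT0
  have f5 : |C₅| * √(150 * C₁ * (128 * C₂)) * ((√a / Real.log Y ^ (3 / 2 : ℝ)) * M) ≤
      K * ((√a / Real.log Y ^ (3 / 2 : ℝ)) * M) :=
    mul_le_mul_of_nonneg_right (by linarith) (by positivity)
  rw [mul_div_assoc C₅, ← hT] at f1
  refine f1.trans (add_le_add ?_ f4)
  rw [mul_assoc K]
  refine le_trans ?_ f5
  rw [hM]
  refine le_trans ?_ (f3.trans_eq (by ring))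
  simp only [mul_assoc]
  exact mul_le_mul_of_nonneg_right (le_abs_self _) (by positivity)

theorem thr_c_E2 {Y : ℝ} {i : ℕ} {x : O} (h : E2 Y i x) : 1 < nm x ∧ nm x ≤ 2 ^ (2 * i + 2) := by
  obtain ⟨h1, h2, h3⟩ := h
  have e : nm x = ∏ p ∈ pfs x, nm p := by
    rw [← nm_prod, ← rad, h1.1.rad_eq h1.2]
  constructor
  · have := Finset.prod_le_prod (s := pfs x) (f := fun _ => (2 : ℝ)) (g := fun p => nm p)
      (fun _ _ => by norm_num) fun p hp => two_le_nm (pra_of_mem_pfs hp).1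
    rw [Finset.prod_const, h2, ← e] at this
    linarith
  · have := Finset.prod_le_prod (s := pfs x) (f := fun p => nm p) (g := fun _ => (2 : ℝ) * 2 ^ i)
      (fun p _ => nm_nonneg p) fun p hp => (h3 p hp).2
    rw [Finset.prod_const, h2, ← e] at this
    refine this.trans_eq ?_
    ring

theorem thr_c_w3 {Y : ℝ} {i : ℕ} {x : O} (h : w3 Y i x ≠ 0) : E2 Y i x := by
  by_contra h'
  exact h (by rw [w3, if_neg h'])

theorem thr_c_prw {Y P₁ P₂ : ℝ} {q : O} (h : prw Y P₁ P₂ q ≠ 0) : nm q ≤ P₂ := by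
  by_contra h'
  exact h (by rw [prw, if_neg fun h'' => h' h''.2.2.2])

theorem thr_c_split (l : ℤ) (a Y : ℝ) :
    ‖∑ n ∈ sball (Y ^ 2), FF l a Y n * R3 Y n‖ ≤ ∑ i ∈ Finset.range (NY Y),
      (‖∑ n ∈ sball (Y ^ 2), FF l a Y n * cv (w3' Y i) (prw Y (2 ^ i) (2 * 2 ^ i)) n‖ +
       ‖∑ n ∈ sball (Y ^ 2), FF l a Y n *
          cv (w3 Y i) (prw Y (2 ^ i) (min (2 * 2 ^ i) (Y ^ (34 / 100 : ℝ)))) n‖) := by
  simp only [R3, Finset.mul_sum]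
  rw [Finset.sum_comm]
  refine (norm_sum_le _ _).trans (Finset.sum_le_sum fun i _ => ?_)
  simp only [mul_sub, Finset.sum_sub_distrib]
  exact norm_sub_le _ _

theorem thr_c_log {Y : ℝ} (hY : 2 ≤ Y) : 2 / 3 ≤ Real.log Y ∧ Real.log Y ^ 4 ≤ 24 * Y := by
  have h2 := Real.log_two_gt_d9
  have h3 : Real.log 2 ≤ Real.log Y := Real.log_le_log (by norm_num) hY
  refine ⟨by linarith, ?_⟩
  have h4 := Real.pow_div_factorial_le_exp (Real.log Y) (by linarith) 4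
  rw [Real.exp_log (by linarith), div_le_iff₀ (by positivity)] at h4
  norm_num [Nat.factorial] at h4
  linarith

/-- one column block -/
theorem thr_c_one (h1 : StBil) (h2 : StHi) (h4 : StRam) (l : ℤ) : ∃ C Y₀ : ℝ, 0 < C ∧
    ∀ (Y a P : ℝ) (i N : ℕ) (α : O → ℂ), Y₀ ≤ Y → 2 ≤ Y → Y ^ (-(17 / 100) : ℝ) ≤ a → a ≤ 1 →
    P ≤ 2 * 2 ^ i → 2 * i + 2 ≤ N → (∀ x, α x ≠ 0 → E2 Y i x) → (∀ x, ‖α x‖ ≤ 1) →
    ‖∑ n ∈ sball (Y ^ 2), FF l a Y n * cv α (prw Y (2 ^ i) P) n‖ ≤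
      C / Y + N * (C * Y ^ (5 / 6 : ℝ) / Real.log Y ^ (5 : ℝ)) +
      C * (Real.sqrt a / Real.log Y ^ (3 / 2 : ℝ)) *
        ∑ j ∈ (Finset.range N).filter (fun j => j ≤ 2 * i + 2),
          min ((2 : ℝ) ^ j * 2 ^ i / Y) (Y / (2 ^ j * 2 ^ i)) * ((2 : ℝ) ^ j * 2 ^ i) ^ (5 / 6 : ℝ) *
            ((2 : ℝ) ^ j / (2 ^ i) ^ 2) ^ (1 / 48 : ℝ) := by
  obtain ⟨C₀, hC₀, hcv⟩ := conv_Bil' l 0
  obtain ⟨C₁, Y₀, hC₁, hbl⟩ := block3 h1 h2 h4 l
  refine ⟨C₀ + C₁, Y₀, by positivity, fun Y a P i N α hY₀ hY ha ha1 hP hN hα hα1 => ?_⟩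
  have hY0 : 0 < Y := by linarith
  have ha0 : 0 < a := (Real.rpow_pos_of_pos hY0 _).trans_le ha
  have hL : 0 < Real.log Y := by linarith [(thr_c_log hY).1]
  have hx : ∀ x, α x ≠ 0 → 1 < nm x ∧ nm x ≤ 2 ^ N := fun x hx =>
    ⟨(thr_c_E2 (hα x hx)).1, (thr_c_E2 (hα x hx)).2.trans (pow_le_pow_right₀ one_le_two hN)⟩
  have b1 := hcv Y a (2 ^ N) (2 * 2 ^ i) α (prw Y (2 ^ i) P) hY ha0 ha1
    (fun x => by simpa using hα1 x) (fun x => by simpa using norm_prw_le hY0.le _ _ x)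
    (fun x h => ⟨(hα x h).1.1, (hx x h).2⟩) fun b hb => (thr_c_prw hb).trans hP
  have b2 := Bil_dy_rows a Y (tw l α) (tw l (prw Y (2 ^ i) P)) (XA := 2 ^ N) (2 * 2 ^ i) (N := N)
    (fun x h => hx x (left_ne_zero_of_mul h)) le_rfl
  simp only [tw_dy] at b2
  have b3 := (norm_sum_le _ _).trans (Finset.sum_le_sum fun j (_ : j ∈ Finset.range N) =>
    hbl Y a P i j α hY₀ ha ha1 hP hα hα1)
  rw [← b2, Finset.sum_add_distrib, ← Finset.mul_sum, ← Finset.sum_filter, Finset.sum_const,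
    Finset.card_range, nsmul_eq_mul] at b3
  have b4 := (norm_add_le _ _).trans (add_le_add b1 b3)
  rw [sub_add_cancel] at b4
  refine b4.trans ?_
  set T := ∑ j ∈ (Finset.range N).filter (fun j => j ≤ 2 * i + 2),
          min ((2 : ℝ) ^ j * 2 ^ i / Y) (Y / (2 ^ j * 2 ^ i)) * ((2 : ℝ) ^ j * 2 ^ i) ^ (5 / 6 : ℝ) *
            ((2 : ℝ) ^ j / (2 ^ i) ^ 2) ^ (1 / 48 : ℝ) with hT
  have hT0 : 0 ≤ T := Finset.sum_nonneg fun j _ => by positivity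
  have c1 : C₀ / Y ≤ (C₀ + C₁) / Y := by gcongr; linarith
  have c2 : N * (C₁ * Y ^ (5 / 6 : ℝ) / Real.log Y ^ (5 : ℝ)) ≤
      N * ((C₀ + C₁) * Y ^ (5 / 6 : ℝ) / Real.log Y ^ (5 : ℝ)) := by gcongr; linarith
  have c3 : C₁ * (Real.sqrt a / Real.log Y ^ (3 / 2 : ℝ)) * T ≤
      (C₀ + C₁) * (Real.sqrt a / Real.log Y ^ (3 / 2 : ℝ)) * T := by gcongr; linarith
  linarith

/-- `conv_Bil'` with `XA = 4 · 4^NY`, `XB = 2 · 2^i`; `Bil_dy_rows` with `N = 2 NY + 2 ≤ 9 log Y`;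
`block3`, `geom2`; bounded `Y` by `conv_triv` -/
theorem sum_R3 (h1 : StBil) (h2 : StHi) (h4 : StRam) (l : ℤ) : ∃ C : ℝ, 0 < C ∧
    ∀ Y a : ℝ, 2 ≤ Y → Y ^ (-(17 / 100) : ℝ) ≤ a → a ≤ 1 →
    ‖∑ n ∈ sball (Y ^ 2), FF l a Y n * R3 Y n‖ ≤ C * Y ^ (5 / 6 : ℝ) *
      (Real.sqrt a / Real.log Y ^ (3 / 2 : ℝ) + 1 / Real.log Y ^ (3 : ℝ)) := by
  obtain ⟨C₁, Y₀, hC₁, hone⟩ := thr_c_one h1 h2 h4 l
  obtain ⟨C₂, hC₂, hg⟩ := geom2
  obtain ⟨C₃, hC₃, htr⟩ := conv_triv l 0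
  set Y₁ : ℝ := max Y₀ 2 with hY₁
  have hY₁0 : 0 < Y₁ := lt_of_lt_of_le two_pos (le_max_right _ _)
  refine ⟨198 * C₁ + 2 * C₁ * C₂ + 144 * C₃ * (Y₁ * Y₁ ^ (3 / 2 : ℝ)), by positivity,
    fun Y a hY ha ha1 => (thr_c_split l a Y).trans ?_⟩
  have hY0 : 0 < Y := by linarith
  have ha0 : 0 < a := (Real.rpow_pos_of_pos hY0 _).trans_le ha
  obtain ⟨hL1, hL4⟩ := thr_c_log hY
  have hN := NY_le hY
  have e3 : Real.log Y ^ (3 : ℝ) = Real.log Y ^ 3 := by exact_mod_cast Real.rpow_natCast _ 3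
  have e5 : Real.log Y ^ (5 : ℝ) = Real.log Y ^ 5 := by exact_mod_cast Real.rpow_natCast _ 5
  have hZ : 1 ≤ Y ^ (5 / 6 : ℝ) := Real.one_le_rpow (by linarith) (by norm_num)
  rw [e3]
  set L := Real.log Y with hLdef
  have hL : 0 < L := by linarith
  set Z := Y ^ (5 / 6 : ℝ) with hZdef
  set s := Real.sqrt a / L ^ (3 / 2 : ℝ) with hs
  have hs0 : 0 ≤ s := by positivity
  have hu : 0 < 1 / L ^ 3 := by positivity
  have hLY : L / Y ≤ 24 * (1 / L ^ 3) := by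
    rw [mul_one_div, div_le_div_iff₀ hY0 (by positivity)]
    linarith
  set W := 144 * C₃ * (Y₁ * Y₁ ^ (3 / 2 : ℝ)) with hW
  have hW0 : 0 ≤ W := by positivity
  have hC12 : 0 ≤ 2 * C₁ * C₂ := by positivity
  rcases le_or_gt Y₀ Y with hY₀ | hY₀
  · have b1 := Finset.sum_le_sum fun i (hi : i ∈ Finset.range (NY Y)) => add_le_add
      (hone Y a (2 * 2 ^ i) i (2 * NY Y + 2) (w3' Y i) hY₀ hY ha ha1 le_rfl
        (by have := Finset.mem_range.1 hi; omega) (fun x hx => thr_c_w3 (left_ne_zero_of_mul hx))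
        (norm_w3'_le hY0.le i))
      (hone Y a (min (2 * 2 ^ i) (Y ^ (34 / 100 : ℝ))) i (2 * NY Y + 2) (w3 Y i) hY₀ hY ha ha1
        (min_le_left _ _) (by have := Finset.mem_range.1 hi; omega) (fun x hx => thr_c_w3 hx)
        (norm_w3_le hY0.le i))
    refine b1.trans ?_
    have b2 := hg Y (NY Y) (2 * NY Y + 2) (by linarith)
    simp only [← two_mul]
    rw [← Finset.mul_sum, Finset.sum_add_distrib, ← Finset.mul_sum, Finset.sum_const, Finset.card_range,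
      nsmul_eq_mul, e5, ← hZdef, ← hs]
    have b3 := mul_le_mul_of_nonneg_left b2 (mul_nonneg hC₁.le hs0)
    have hN2 : ((2 * NY Y + 2 : ℕ) : ℝ) ≤ 9 * L := by push_cast; linarith
    have b4 : (NY Y : ℝ) * (C₁ / Y + ((2 * NY Y + 2 : ℕ) : ℝ) * (C₁ * Z / L ^ 5)) ≤
        3 * L * (C₁ / Y + 9 * L * (C₁ * Z / L ^ 5)) := by gcongr
    have b5 : 3 * L * (C₁ / Y + 9 * L * (C₁ * Z / L ^ 5)) =
        3 * C₁ * (L / Y) + 27 * C₁ * Z * (1 / L ^ 3) := by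
      field_simp
      ring
    have b6 : 3 * C₁ * (L / Y) ≤ 3 * C₁ * (24 * (1 / L ^ 3)) * Z := by
      refine le_trans (mul_le_mul_of_nonneg_left hLY (by positivity)) ?_
      exact le_mul_of_one_le_right (by positivity) hZ
    have p1 : 0 ≤ C₁ * Z * s := by positivity
    have p2 : 0 ≤ 2 * C₁ * C₂ * Z * (1 / L ^ 3) := by positivity
    have p3 : 0 ≤ W * Z * (s + 1 / L ^ 3) := by positivity
    nlinarith
  · have hYY : Y ≤ Y₁ := hY₀.le.trans (le_max_left _ _)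
    have b1 := Finset.sum_le_sum fun i (_ : i ∈ Finset.range (NY Y)) => add_le_add
      (htr Y a 1 (w3' Y i) (prw Y (2 ^ i) (2 * 2 ^ i)) hY ha0 ha1 zero_le_one
        (fun x => by simpa using norm_w3'_le hY0.le i x) fun x => by simpa using norm_prw_le hY0.le _ _ x)
      (htr Y a 1 (w3 Y i) (prw Y (2 ^ i) (min (2 * 2 ^ i) (Y ^ (34 / 100 : ℝ)))) hY ha0 ha1 zero_le_one
        (fun x => by simpa using norm_w3_le hY0.le i x) fun x => by simpa using norm_prw_le hY0.le _ _ x)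
    refine b1.trans ?_
    rw [Finset.sum_const, Finset.card_range, nsmul_eq_mul]
    have b2 : Y ^ (3 / 2 : ℝ) ≤ Y₁ ^ (3 / 2 : ℝ) := Real.rpow_le_rpow hY0.le hYY (by norm_num)
    have b3 : L ≤ 24 * (1 / L ^ 3) * Y₁ := by
      rw [div_le_iff₀ hY0] at hLY
      exact hLY.trans (mul_le_mul_of_nonneg_left hYY (by positivity))
    have b4 : (NY Y : ℝ) * (C₃ * 1 * Y ^ (3 / 2 : ℝ) + C₃ * 1 * Y ^ (3 / 2 : ℝ)) ≤
        3 * (24 * (1 / L ^ 3) * Y₁) * (C₃ * 1 * Y₁ ^ (3 / 2 : ℝ) + C₃ * 1 * Y₁ ^ (3 / 2 : ℝ)) := by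
      have : (NY Y : ℝ) ≤ 3 * (24 * (1 / L ^ 3) * Y₁) := by linarith
      gcongr
    have b5 : 3 * (24 * (1 / L ^ 3) * Y₁) * (C₃ * 1 * Y₁ ^ (3 / 2 : ℝ) + C₃ * 1 * Y₁ ^ (3 / 2 : ℝ)) =
        W * (1 / L ^ 3) := by rw [hW]; ring
    have b6 : W * (1 / L ^ 3) ≤ W * (1 / L ^ 3) * Z := le_mul_of_one_le_right (by positivity) hZ
    have p1 : 0 ≤ (198 * C₁ + 2 * C₁ * C₂) * Z * (s + 1 / L ^ 3) := by positivity
    have p2 : 0 ≤ W * Z * s := by positivity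
    nlinarith

end Crest.Agent.R12.SI
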